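import Crest.Agent.R178.Defs

/-!
Row 178: the bimodule `N = coker (c : V* ⊗ U → V* ⊗ U)`, `c = (Z+1) - Ê`,
and the ambient filtered algebra `UU = U ⋉ N`.
-/

set_option autoImplicit false

open Finset

namespace Crest.Agent.R178

attribute [local instance 100] LieRing.ofAssociativeRing

open UniversalEnvelopingAlgebra in
theorem e_comm (x y : gl2) : ι ℂ x * ι ℂ y - ι ℂ y * ι ℂ x = ι ℂ (x * y - y * x) := by
  have h : ι ℂ ⁅x, y⁆ = ⁅ι ℂ x, ι ℂ y⁆ := LieHom.map_lie _ _ _
  exact h.symm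

/-- the operator `c` on `V* ⊗ U = (Fin 2 → U)` -/
noncomputable def cmap : (Fin 2 → U) →ₗ[ℂ] (Fin 2 → U) where
  toFun v := ![(e 3 + 1) * v 0 - e 1 * v 1, - (e 2 * v 0) + (e 0 + 1) * v 1]
  map_add' x y := by
    ext i; fin_cases i <;> simp [mul_add] <;> abel
  map_smul' r y := by
    ext i; fin_cases i <;> simp [smul_add, smul_sub]

/-- the `V*`-part of the left action (up to sign) -/
noncomputable def pact (x : gl2) : (Fin 2 → U) →ₗ[ℂ] (Fin 2 → U) where
  toFun v := fun k => ∑ a, x a k • v a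
  map_add' v w := by
    ext k; simp only [Pi.add_apply, smul_add, Finset.sum_add_distrib]
  map_smul' r v := by
    ext k
    simp only [Pi.smul_apply, RingHom.id_apply, Finset.smul_sum]
    exact Finset.sum_congr rfl fun a _ => smul_comm _ _ _

theorem pact_apply (x : gl2) (v : Fin 2 → U) (k : Fin 2) : pact x v k = ∑ a, x a k • v a := rfl

theorem pact_pact (x y : gl2) (v : Fin 2 → U) : pact x (pact y v) = pact (y * x) v := by
  ext k
  simp only [pact_apply, Matrix.mul_apply, Finset.smul_sum, Finset.sum_smul, smul_smul]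
  rw [Finset.sum_comm]
  exact Finset.sum_congr rfl fun a _ => Finset.sum_congr rfl fun b _ => by rw [mul_comm]

theorem pact_sub (x y : gl2) (v : Fin 2 → U) : pact (x - y) v = pact x v - pact y v := by
  ext k
  simp only [pact_apply, Matrix.sub_apply, sub_smul, Finset.sum_sub_distrib, Pi.sub_apply]

/-- left multiplication on the `U`-component -/
noncomputable def lmul (u : U) : (Fin 2 → U) →ₗ[ℂ] (Fin 2 → U) where
  toFun v := fun k => u * v k
  map_add' v w := by ext k; simp [mul_add]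
  map_smul' r v := by ext k; simp

@[simp] theorem lmul_apply (u : U) (v : Fin 2 → U) (k : Fin 2) : lmul u v k = u * v k := rfl

theorem lmul_pact (u : U) (x : gl2) (v : Fin 2 → U) : lmul u (pact x v) = pact x (lmul u v) := by
  ext k
  simp only [lmul_apply, pact_apply, Finset.mul_sum, mul_smul_comm]

/-- left action of `gl_2` on `V* ⊗ U` -/
noncomputable def lact (x : gl2) : (Fin 2 → U) →ₗ[ℂ] (Fin 2 → U) :=
  lmul (UniversalEnvelopingAlgebra.ι ℂ x) - pact x

theorem lact_apply (x : gl2) (v : Fin 2 → U) (k : Fin 2) :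
    lact x v k = UniversalEnvelopingAlgebra.ι ℂ x * v k - ∑ a, x a k • v a := rfl

theorem lact_apply' (x : gl2) (v : Fin 2 → U) :
    lact x v = lmul (UniversalEnvelopingAlgebra.ι ℂ x) v - pact x v := rfl

/-- the left action as a Lie algebra homomorphism -/
noncomputable def lactHom : gl2 →ₗ⁅ℂ⁆ Module.End ℂ (Fin 2 → U) where
  toFun := lact
  map_add' x y := by
    refine LinearMap.ext fun v => funext fun k => ?_
    simp only [lact_apply, LinearMap.add_apply, Pi.add_apply, map_add, add_mul, Matrix.add_apply,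
      add_smul, Finset.sum_add_distrib]
    abel
  map_smul' r x := by
    refine LinearMap.ext fun v => funext fun k => ?_
    simp only [lact_apply, LinearMap.smul_apply, Pi.smul_apply, map_smul, smul_mul_assoc,
      Matrix.smul_apply, smul_eq_mul, mul_smul, smul_sub, Finset.smul_sum, RingHom.id_apply]
  map_lie' := by
    intro x y
    refine LinearMap.ext fun v => ?_
    have h := e_comm x y
    change lact (x * y - y * x) v = lact x (lact y v) - lact y (lact x v)
    simp only [lact_apply', map_sub, pact_sub, lmul_pact, pact_pact]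
    have h2 : lmul (UniversalEnvelopingAlgebra.ι ℂ x * UniversalEnvelopingAlgebra.ι ℂ y -
        UniversalEnvelopingAlgebra.ι ℂ y * UniversalEnvelopingAlgebra.ι ℂ x) v =
        lmul (UniversalEnvelopingAlgebra.ι ℂ x) (lmul (UniversalEnvelopingAlgebra.ι ℂ y) v) -
        lmul (UniversalEnvelopingAlgebra.ι ℂ y) (lmul (UniversalEnvelopingAlgebra.ι ℂ x) v) := by
      ext k; simp [sub_mul, mul_assoc]
    rw [← map_sub, ← h, h2]
    abel

/-- left action of `U` on `V* ⊗ U` -/
noncomputable def lU : U →ₐ[ℂ] Module.End ℂ (Fin 2 → U) := UniversalEnvelopingAlgebra.lift ℂ lactHom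

theorem lU_ι (x : gl2) : lU (UniversalEnvelopingAlgebra.ι ℂ x) = lact x := by
  rw [lU, UniversalEnvelopingAlgebra.lift_ι_apply]; rfl

/-- right multiplication on `V* ⊗ U` -/
noncomputable def ract (u : U) : (Fin 2 → U) →ₗ[ℂ] (Fin 2 → U) where
  toFun v := fun k => v k * u
  map_add' v w := by ext k; simp [add_mul]
  map_smul' r v := by ext k; simp

@[simp] theorem ract_apply (u : U) (v : Fin 2 → U) (k : Fin 2) : ract u v k = v k * u := rfl

/-- `U` is generated by `gl_2`. -/
theorem U_induction {P : U → Prop} (h1 : ∀ c : ℂ, P (algebraMap ℂ U c))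
    (hι : ∀ x : gl2, P (UniversalEnvelopingAlgebra.ι ℂ x))
    (hadd : ∀ a b, P a → P b → P (a + b)) (hmul : ∀ a b, P a → P b → P (a * b)) (u : U) : P u := by
  let S : Subalgebra ℂ U :=
    { carrier := {u | P u}
      mul_mem' := fun {a b} ha hb => hmul a b ha hb
      add_mem' := fun {a b} ha hb => hadd a b ha hb
      algebraMap_mem' := h1 }
  let f : gl2 →ₗ⁅ℂ⁆ S :=
    { toFun := fun x => ⟨UniversalEnvelopingAlgebra.ι ℂ x, hι x⟩
      map_add' := fun x y => by ext; simp
      map_smul' := fun r x => by ext; simp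
      map_lie' := fun {x y} => by
        ext
        exact (e_comm x y).symm }
  have key : (S.val).comp (UniversalEnvelopingAlgebra.lift ℂ f) = AlgHom.id ℂ U := by
    apply UniversalEnvelopingAlgebra.hom_ext
    ext x
    simp only [LieHom.comp_apply, AlgHom.coe_toLieHom, AlgHom.comp_apply, AlgHom.id_apply]
    rw [UniversalEnvelopingAlgebra.lift_ι_apply]
    rfl
  have := congrArg (fun g => g u) key
  simp only [AlgHom.comp_apply, AlgHom.id_apply] at this
  rw [← this]
  exact (UniversalEnvelopingAlgebra.lift ℂ f u).2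

theorem lact_ract (x : gl2) (u : U) (v : Fin 2 → U) : lact x (ract u v) = ract u (lact x v) := by
  ext k; simp [lact_apply, sub_mul, add_mul, mul_assoc]

theorem cmap_ract (u : U) (v : Fin 2 → U) : cmap (ract u v) = ract u (cmap v) := by
  ext k; fin_cases k <;> simp [cmap, sub_mul, add_mul, mul_assoc]

/-! ### commutation relations in `U` -/

theorem eg_comm (a b : Fin 4) :
    e a * e b - e b * e a = UniversalEnvelopingAlgebra.ι ℂ (eg a * eg b - eg b * eg a) := e_comm _ _

theorem r10 (v : U) : e 1 * (e 0 * v) = e 0 * (e 1 * v) - e 1 * v := by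
  have h : e 0 * e 1 - e 1 * e 0 = e 1 := by
    rw [eg_comm, e]; congr 1
    ext i j; fin_cases i <;> fin_cases j <;> simp [eg, rw', cl']
  rw [← mul_assoc, ← mul_assoc, ← sub_mul]; congr 1
  rw [sub_eq_iff_eq_add] at h; rw [h]; abel

theorem r20 (v : U) : e 2 * (e 0 * v) = e 0 * (e 2 * v) + e 2 * v := by
  have h : e 0 * e 2 - e 2 * e 0 = - e 2 := by
    rw [eg_comm, e, ← map_neg]; congr 1
    ext i j; fin_cases i <;> fin_cases j <;> simp [eg, rw', cl']
  rw [← mul_assoc, ← mul_assoc, ← add_mul]; congr 1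
  rw [sub_eq_iff_eq_add] at h; rw [h]; abel

theorem r30 (v : U) : e 3 * (e 0 * v) = e 0 * (e 3 * v) := by
  have h : e 0 * e 3 - e 3 * e 0 = 0 := by
    rw [eg_comm, ← map_zero (UniversalEnvelopingAlgebra.ι ℂ : gl2 →ₗ⁅ℂ⁆ U)]; congr 1
    ext i j; fin_cases i <;> fin_cases j <;> simp [eg, rw', cl']
  rw [← mul_assoc, ← mul_assoc]; congr 1
  rw [sub_eq_zero] at h; rw [h]

theorem r21 (v : U) : e 2 * (e 1 * v) = e 1 * (e 2 * v) - e 0 * v + e 3 * v := by
  have h : e 1 * e 2 - e 2 * e 1 = e 0 - e 3 := by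
    rw [eg_comm, e, e, ← map_sub]; congr 1
    ext i j; fin_cases i <;> fin_cases j <;> simp [eg, rw', cl']
  rw [← mul_assoc, ← mul_assoc, ← sub_mul, ← add_mul]; congr 1
  rw [sub_eq_iff_eq_add] at h; rw [h]; abel

theorem r31 (v : U) : e 3 * (e 1 * v) = e 1 * (e 3 * v) - e 1 * v := by
  have h : e 1 * e 3 - e 3 * e 1 = e 1 := by
    rw [eg_comm, e]; congr 1
    ext i j; fin_cases i <;> fin_cases j <;> simp [eg, rw', cl']
  rw [← mul_assoc, ← mul_assoc, ← sub_mul]; congr 1
  rw [sub_eq_iff_eq_add] at h; rw [h]; abel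

theorem r32 (v : U) : e 3 * (e 2 * v) = e 2 * (e 3 * v) + e 2 * v := by
  have h : e 2 * e 3 - e 3 * e 2 = - e 2 := by
    rw [eg_comm, e, ← map_neg]; congr 1
    ext i j; fin_cases i <;> fin_cases j <;> simp [eg, rw', cl']
  rw [← mul_assoc, ← mul_assoc, ← add_mul]; congr 1
  rw [sub_eq_iff_eq_add] at h; rw [h]; abel

theorem gl2_eq (x : gl2) : x = x 0 0 • eg 0 + x 0 1 • eg 1 + x 1 0 • eg 2 + x 1 1 • eg 3 := by
  ext i j; fin_cases i <;> fin_cases j <;> simp [eg, rw', cl']

theorem cmap_zero' (v : Fin 2 → U) : cmap v 0 = e 3 * v 0 + v 0 - e 1 * v 1 := by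
  simp [cmap, add_mul]

theorem cmap_one' (v : Fin 2 → U) : cmap v 1 = - (e 2 * v 0) + e 0 * v 1 + v 1 := by
  simp [cmap, add_mul, add_assoc]

theorem lact_eg (a : Fin 4) (v : Fin 2 → U) (k : Fin 2) :
    lact (eg a) v k = e a * v k - if k = cl' a then v (rw' a) else 0 := by
  rw [lact_apply, Fin.sum_univ_two]
  fin_cases a <;> fin_cases k <;> simp [eg, rw', cl', e]

theorem cmap_lact_eg (a : Fin 4) (v : Fin 2 → U) : cmap (lact (eg a) v) = lact (eg a) (cmap v) := by
  funext k
  fin_cases a <;> fin_cases k <;>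
    simp [cmap_zero', cmap_one', lact_eg, cl', rw', mul_add, mul_sub, r10, r20, r30, r21, r31, r32] <;> abel

theorem cmap_lact (x : gl2) (v : Fin 2 → U) : cmap (lact x v) = lact x (cmap v) := by
  have key : ∀ w : Fin 2 → U, lact x w = x 0 0 • lact (eg 0) w + x 0 1 • lact (eg 1) w +
      x 1 0 • lact (eg 2) w + x 1 1 • lact (eg 3) w := by
    intro w
    have h : lactHom x = x 0 0 • lactHom (eg 0) + x 0 1 • lactHom (eg 1) +
      x 1 0 • lactHom (eg 2) + x 1 1 • lactHom (eg 3) := by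
      conv_lhs => rw [gl2_eq x]
      simp only [map_add, map_smul]
    exact congrArg (fun f => f w) h
  rw [key, key]
  simp only [map_add, map_smul, cmap_lact_eg]

theorem cmap_lU (u : U) (v : Fin 2 → U) : cmap (lU u v) = lU u (cmap v) := by
  induction u using U_induction generalizing v with
  | h1 c => simp [Algebra.algebraMap_eq_smul_one]
  | hι x => rw [lU_ι, cmap_lact]
  | hadd a b ha hb => simp [map_add, ha, hb]
  | hmul a b ha hb => simp [map_mul, ha, hb]

theorem lU_ract (u u' : U) (v : Fin 2 → U) : lU u (ract u' v) = ract u' (lU u v) := by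
  induction u using U_induction generalizing v with
  | h1 c => simp [Algebra.algebraMap_eq_smul_one]
  | hι x => rw [lU_ι, lact_ract]
  | hadd a b ha hb => simp [map_add, ha, hb]
  | hmul a b ha hb => simp [map_mul, ha, hb]

/-! ### the bimodule `N` -/

/-- the bimodule `N = coker c` -/
def NN : Type := (Fin 2 → U) ⧸ LinearMap.range cmap

noncomputable instance : AddCommGroup NN := inferInstanceAs (AddCommGroup ((Fin 2 → U) ⧸ LinearMap.range cmap))
noncomputable instance : Module ℂ NN := inferInstanceAs (Module ℂ ((Fin 2 → U) ⧸ LinearMap.range cmap))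

/-- the projection `V* ⊗ U → N` -/
noncomputable def mkN : (Fin 2 → U) →ₗ[ℂ] NN := (LinearMap.range cmap).mkQ

theorem mkN_surj : Function.Surjective mkN := Submodule.mkQ_surjective _

theorem mkN_eq_zero (v : Fin 2 → U) : mkN v = 0 ↔ ∃ w, cmap w = v := by
  rw [mkN]
  erw [Submodule.mkQ_apply, Submodule.Quotient.mk_eq_zero, LinearMap.mem_range]

@[simp] theorem mkN_cmap (v : Fin 2 → U) : mkN (cmap v) = 0 := (mkN_eq_zero _).2 ⟨v, rfl⟩

/-- descend an endomorphism commuting with `c` to `N` -/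
noncomputable def descend (f : (Fin 2 → U) →ₗ[ℂ] (Fin 2 → U)) (hf : ∀ v, cmap (f v) = f (cmap v)) :
    NN →ₗ[ℂ] NN :=
  (LinearMap.range cmap).mapQ (LinearMap.range cmap) f (by
    rintro _ ⟨v, rfl⟩
    exact ⟨f v, hf v⟩)

@[simp] theorem descend_mk (f : (Fin 2 → U) →ₗ[ℂ] (Fin 2 → U)) (hf : ∀ v, cmap (f v) = f (cmap v))
    (v : Fin 2 → U) : descend f hf (mkN v) = mkN (f v) := rfl

/-- left action of `U` on `N` -/
noncomputable def lN : U →ₐ[ℂ] Module.End ℂ NN where
  toFun u := descend (lU u) (cmap_lU u)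
  map_one' := by
    refine LinearMap.ext fun n => ?_
    obtain ⟨v, rfl⟩ := mkN_surj n
    simp
  map_mul' a b := by
    refine LinearMap.ext fun n => ?_
    obtain ⟨v, rfl⟩ := mkN_surj n
    simp
  map_zero' := by
    refine LinearMap.ext fun n => ?_
    obtain ⟨v, rfl⟩ := mkN_surj n
    simp
  map_add' a b := by
    refine LinearMap.ext fun n => ?_
    obtain ⟨v, rfl⟩ := mkN_surj n
    simp
  commutes' c := by
    refine LinearMap.ext fun n => ?_
    obtain ⟨v, rfl⟩ := mkN_surj n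
    simp [Algebra.algebraMap_eq_smul_one]

@[simp] theorem lN_mk (u : U) (v : Fin 2 → U) : lN u (mkN v) = mkN (lU u v) := rfl

/-- right multiplication on `N` -/
noncomputable def rN (u : U) : NN →ₗ[ℂ] NN := descend (ract u) (cmap_ract u)

@[simp] theorem rN_mk (u : U) (v : Fin 2 → U) : rN u (mkN v) = mkN (ract u v) := rfl

theorem ract_one (v : Fin 2 → U) : ract 1 v = v := by ext; simp
theorem ract_mul (a b : U) (v : Fin 2 → U) : ract (a * b) v = ract b (ract a v) := by
  ext; simp [mul_assoc]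
theorem ract_add (a b : U) (v : Fin 2 → U) : ract (a + b) v = ract a v + ract b v := by
  ext; simp [mul_add]
theorem ract_zero (v : Fin 2 → U) : ract 0 v = 0 := by ext; simp
theorem ract_smul (c : ℂ) (a : U) (v : Fin 2 → U) : ract (c • a) v = c • ract a v := by
  ext; simp

noncomputable instance : Module U NN where
  smul u n := lN u n
  one_smul n := by change lN 1 n = n; simp
  mul_smul a b n := by change lN (a * b) n = lN a (lN b n); simp
  smul_zero a := by change lN a 0 = 0; simp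
  smul_add a x y := by change lN a (x + y) = lN a x + lN a y; simp
  add_smul a b x := by change lN (a + b) x = lN a x + lN b x; simp
  zero_smul x := by change lN 0 x = 0; simp

theorem smul_def (u : U) (n : NN) : u • n = lN u n := rfl

noncomputable instance : Module Uᵐᵒᵖ NN where
  smul u n := rN u.unop n
  one_smul n := by
    change rN 1 n = n
    obtain ⟨v, rfl⟩ := mkN_surj n
    rw [rN_mk, ract_one]
  mul_smul a b n := by
    change rN (b.unop * a.unop) n = rN a.unop (rN b.unop n)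
    obtain ⟨v, rfl⟩ := mkN_surj n
    rw [rN_mk, rN_mk, rN_mk, ract_mul]
  smul_zero a := by change rN a.unop 0 = 0; simp
  smul_add a x y := by change rN a.unop (x + y) = rN a.unop x + rN a.unop y; simp
  add_smul a b x := by
    change rN (a.unop + b.unop) x = rN a.unop x + rN b.unop x
    obtain ⟨v, rfl⟩ := mkN_surj x
    simp only [rN_mk, ract_add, map_add]
  zero_smul x := by
    change rN 0 x = 0
    obtain ⟨v, rfl⟩ := mkN_surj x
    rw [rN_mk, ract_zero, map_zero]

theorem op_smul_def (u : Uᵐᵒᵖ) (n : NN) : u • n = rN u.unop n := rfl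

instance : SMulCommClass U Uᵐᵒᵖ NN where
  smul_comm u w n := by
    change lN u (rN w.unop n) = rN w.unop (lN u n)
    obtain ⟨v, rfl⟩ := mkN_surj n
    simp [lU_ract]

instance : IsScalarTower ℂ U NN where
  smul_assoc c u n := by
    change lN (c • u) n = c • lN u n
    simp

instance : IsScalarTower ℂ Uᵐᵒᵖ NN where
  smul_assoc c u n := by
    change rN ((c • u).unop) n = c • rN u.unop n
    obtain ⟨v, rfl⟩ := mkN_surj n
    rw [MulOpposite.unop_smul, rN_mk, ract_smul, rN_mk, map_smul]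

/-- the ambient algebra `U ⋉ N` -/
abbrev UU := TrivSqZeroExt U NN

noncomputable example : Ring UU := inferInstance
noncomputable example : Algebra ℂ UU := inferInstance

/-! ### elementary properties of the filtration of `U` -/

theorem FU_neg (m : ℤ) (hm : m < 0) : FU m = ⊥ := by
  rw [FU, if_neg (by omega)]

theorem FU_nat (n : ℕ) : FU (n : ℤ) = G1 ^ n := by
  rw [FU, if_pos (by omega)]; simp

theorem one_le_G1 : (1 : Submodule ℂ U) ≤ G1 := by
  rw [Submodule.one_le]
  exact Submodule.subset_span (Set.mem_insert _ _)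

theorem G1_pow_mono {m n : ℕ} (h : m ≤ n) : G1 ^ m ≤ G1 ^ n :=
  pow_le_pow_right' one_le_G1 h

theorem FU_mono (m n : ℤ) (h : m ≤ n) : FU m ≤ FU n := by
  by_cases hm : m < 0
  · rw [FU_neg m hm]; exact bot_le
  · obtain ⟨a, rfl⟩ := Int.eq_ofNat_of_zero_le (by omega : 0 ≤ m)
    obtain ⟨b, rfl⟩ := Int.eq_ofNat_of_zero_le (by omega : 0 ≤ n)
    rw [FU_nat, FU_nat]
    exact G1_pow_mono (by omega)

theorem FU_mul (m n : ℤ) (u v : U) (hu : u ∈ FU m) (hv : v ∈ FU n) : u * v ∈ FU (m + n) := by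
  by_cases hm : m < 0
  · rw [FU_neg m hm, Submodule.mem_bot] at hu; simp [hu]
  by_cases hn : n < 0
  · rw [FU_neg n hn, Submodule.mem_bot] at hv; simp [hv]
  obtain ⟨a, rfl⟩ := Int.eq_ofNat_of_zero_le (by omega : 0 ≤ m)
  obtain ⟨b, rfl⟩ := Int.eq_ofNat_of_zero_le (by omega : 0 ≤ n)
  rw [FU_nat] at hu hv
  rw [← Nat.cast_add, FU_nat, pow_add]
  exact Submodule.mul_mem_mul hu hv

theorem algebraMap_mem_FU (c : ℂ) : algebraMap ℂ U c ∈ FU 0 := by
  have : (0 : ℤ) = ((0 : ℕ) : ℤ) := rfl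
  rw [this, FU_nat, pow_zero]
  exact Submodule.algebraMap_mem c

theorem one_mem_FU : (1 : U) ∈ FU 0 := by
  simpa using algebraMap_mem_FU 1

theorem mem_FU_zero (u : U) (hu : u ∈ FU 0) : ∃ c : ℂ, u = algebraMap ℂ U c := by
  have h0 : (0 : ℤ) = ((0 : ℕ) : ℤ) := rfl
  rw [h0, FU_nat, pow_zero, Submodule.mem_one] at hu
  obtain ⟨c, hc⟩ := hu
  exact ⟨c, hc.symm⟩

theorem e_mem_FU (a : Fin 4) : e a ∈ FU 1 := by
  have : (1 : ℤ) = ((1 : ℕ) : ℤ) := rfl
  rw [this, FU_nat, pow_one]
  exact Submodule.subset_span (Set.mem_insert_of_mem _ ⟨a, rfl⟩)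

theorem FU_fin (m : ℤ) : Module.Finite ℂ (FU m) := by
  have hG : G1.FG := Submodule.fg_span ((Set.finite_range e).insert 1)
  by_cases hm : m < 0
  · rw [FU_neg m hm]; infer_instance
  · obtain ⟨a, rfl⟩ := Int.eq_ofNat_of_zero_le (by omega : 0 ≤ m)
    rw [FU_nat]
    exact Module.Finite.iff_fg.2 (hG.pow a)

theorem ι_mem_FU (x : gl2) : UniversalEnvelopingAlgebra.ι ℂ x ∈ FU 1 := by
  rw [gl2_eq x]
  simp only [map_add, map_smul]
  exact add_mem (add_mem (add_mem (Submodule.smul_mem _ _ (e_mem_FU 0))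
    (Submodule.smul_mem _ _ (e_mem_FU 1))) (Submodule.smul_mem _ _ (e_mem_FU 2)))
    (Submodule.smul_mem _ _ (e_mem_FU 3))

theorem FU_exhaust (u : U) : ∃ m : ℤ, 0 ≤ m ∧ u ∈ FU m := by
  induction u using U_induction with
  | h1 c => exact ⟨0, le_rfl, algebraMap_mem_FU c⟩
  | hι x => exact ⟨1, by norm_num, ι_mem_FU x⟩
  | hadd a b ha hb =>
    obtain ⟨m, hm, ha⟩ := ha
    obtain ⟨n, hn, hb⟩ := hb
    exact ⟨max m n, le_max_of_le_left hm, add_mem (FU_mono _ _ (le_max_left _ _) ha)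
      (FU_mono _ _ (le_max_right _ _) hb)⟩
  | hmul a b ha hb =>
    obtain ⟨m, hm, ha⟩ := ha
    obtain ⟨n, hn, hb⟩ := hb
    exact ⟨m + n, by omega, FU_mul _ _ _ _ ha hb⟩

/-! ### filtrations of `V* ⊗ U`, `N` and `UU` -/

/-- pairs with entries in `FU m` -/
def FV (m : ℤ) : Submodule ℂ (Fin 2 → U) where
  carrier := {v | ∀ k, v k ∈ FU m}
  add_mem' hv hw k := add_mem (hv k) (hw k)
  zero_mem' k := zero_mem _
  smul_mem' c v hv k := Submodule.smul_mem _ c (hv k)

theorem mem_FV (m : ℤ) (v : Fin 2 → U) : v ∈ FV m ↔ ∀ k, v k ∈ FU m := Iff.rfl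

theorem FV_mono (m n : ℤ) (h : m ≤ n) : FV m ≤ FV n := fun _ hv k => FU_mono m n h (hv k)

theorem FV_neg (m : ℤ) (hm : m < 0) : FV m = ⊥ := by
  rw [eq_bot_iff]
  intro v hv
  rw [Submodule.mem_bot]
  ext k
  have := hv k
  rw [FU_neg m hm] at this
  exact this

/-- filtration of `N`, starting in degree `-1` -/
noncomputable def FN (m : ℤ) : Submodule ℂ NN := (FV (m + 1)).map mkN

theorem FN_mono (m n : ℤ) (h : m ≤ n) : FN m ≤ FN n := Submodule.map_mono (FV_mono _ _ (by omega))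

theorem FN_neg (m : ℤ) (hm : m < -1) : FN m = ⊥ := by
  rw [FN, FV_neg _ (by omega), Submodule.map_bot]

theorem mem_FN (m : ℤ) (n : NN) : n ∈ FN m ↔ ∃ v ∈ FV (m + 1), mkN v = n := Submodule.mem_map

instance FV_fin (m : ℤ) : Module.Finite ℂ (FV m) := by
  have := FU_fin m
  let f : (FV m) →ₗ[ℂ] (Fin 2 → FU m) :=
    { toFun := fun v k => ⟨v.1 k, v.2 k⟩
      map_add' := fun _ _ => rfl
      map_smul' := fun _ _ => rfl }
  refine Module.Finite.of_injective f ?_
  intro v w h
  ext k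
  exact congrArg Subtype.val (congrFun h k)

instance FN_fin (m : ℤ) : Module.Finite ℂ (FN m) := by
  rw [FN]; infer_instance

theorem lact_mem (x : gl2) (m : ℤ) (v : Fin 2 → U) (hv : v ∈ FV m) : lact x v ∈ FV (m + 1) := by
  intro k
  rw [lact_apply]
  refine sub_mem ?_ (Submodule.sum_mem _ fun a _ => Submodule.smul_mem _ _ ?_)
  · rw [add_comm]; exact FU_mul _ _ _ _ (ι_mem_FU x) (hv k)
  · exact FU_mono _ _ (by omega) (hv a)

theorem lU_mem (n : ℤ) (u : U) (hu : u ∈ FU n) (m : ℤ) (v : Fin 2 → U) (hv : v ∈ FV m) :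
    lU u v ∈ FV (n + m) := by
  by_cases hn : n < 0
  · rw [FU_neg n hn, Submodule.mem_bot] at hu
    rw [hu]; simp
  obtain ⟨a, rfl⟩ := Int.eq_ofNat_of_zero_le (by omega : 0 ≤ n)
  rw [FU_nat] at hu
  clear hn
  induction a generalizing u v m with
  | zero =>
    rw [pow_zero, Submodule.mem_one] at hu
    obtain ⟨c, rfl⟩ := hu
    have : lU (algebraMap ℂ U c) v = c • v := by simp [Algebra.algebraMap_eq_smul_one]
    rw [this]
    simpa using Submodule.smul_mem _ c hv
  | succ a ih =>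
    rw [pow_succ] at hu
    refine Submodule.mul_induction_on hu ?_ ?_
    · intro x hx y hy
      rw [map_mul, Module.End.mul_apply]
      have h1 : lU y v ∈ FV (m + 1) := by
        refine Submodule.span_induction (p := fun y _ => lU y v ∈ FV (m + 1)) ?_ ?_ ?_ ?_ hy
        · rintro z (rfl | ⟨b, rfl⟩)
          · rw [map_one]; exact FV_mono _ _ (by omega) hv
          · rw [e, lU_ι]; exact lact_mem _ _ _ hv
        · simp
        · intro p q _ _ hp hq; rw [map_add]; exact add_mem hp hq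
        · intro c p _ hp; rw [map_smul]; exact Submodule.smul_mem _ _ hp
      have := ih x _ _ h1 hx
      refine FV_mono _ _ ?_ this
      push_cast; omega
    · intro x y hx hy; rw [map_add]; exact add_mem hx hy

theorem ract_mem (n : ℤ) (u : U) (hu : u ∈ FU n) (m : ℤ) (v : Fin 2 → U) (hv : v ∈ FV m) :
    ract u v ∈ FV (m + n) := fun k => FU_mul _ _ _ _ (hv k) hu

theorem lN_mem (n : ℤ) (u : U) (hu : u ∈ FU n) (m : ℤ) (x : NN) (hx : x ∈ FN m) :
    lN u x ∈ FN (n + m) := by
  obtain ⟨v, hv, rfl⟩ := (mem_FN _ _).1 hx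
  rw [lN_mk, mem_FN]
  exact ⟨_, by rw [add_assoc]; exact lU_mem _ _ hu _ _ hv, rfl⟩

theorem rN_mem (n : ℤ) (u : U) (hu : u ∈ FU n) (m : ℤ) (x : NN) (hx : x ∈ FN m) :
    rN u x ∈ FN (m + n) := by
  obtain ⟨v, hv, rfl⟩ := (mem_FN _ _).1 hx
  rw [rN_mk, mem_FN]
  refine ⟨_, ?_, rfl⟩
  have := ract_mem _ _ hu _ _ hv
  rwa [show m + n + 1 = m + 1 + n by ring]

/-- filtration of `UU = U ⋉ N` -/
def Fil (m : ℤ) : Submodule ℂ UU where
  carrier := {x | x.fst ∈ FU m ∧ x.snd ∈ FN m}
  add_mem' hx hy := ⟨add_mem hx.1 hy.1, add_mem hx.2 hy.2⟩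
  zero_mem' := ⟨zero_mem _, zero_mem _⟩
  smul_mem' c _ hx := ⟨Submodule.smul_mem _ c hx.1, Submodule.smul_mem _ c hx.2⟩

theorem mem_Fil (m : ℤ) (x : UU) : x ∈ Fil m ↔ x.fst ∈ FU m ∧ x.snd ∈ FN m := Iff.rfl

theorem Fil_mono (m n : ℤ) (h : m ≤ n) : Fil m ≤ Fil n :=
  fun _ hx => ⟨FU_mono _ _ h hx.1, FN_mono _ _ h hx.2⟩

theorem Fil_mul (m n : ℤ) (x y : UU) (hx : x ∈ Fil m) (hy : y ∈ Fil n) : x * y ∈ Fil (m + n) := by
  refine ⟨?_, ?_⟩
  · rw [TrivSqZeroExt.fst_mul]; exact FU_mul _ _ _ _ hx.1 hy.1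
  · rw [TrivSqZeroExt.snd_mul]
    refine add_mem ?_ ?_
    · exact lN_mem _ _ hx.1 _ _ hy.2
    · exact rN_mem _ _ hy.1 _ _ hx.2

theorem algebraMap_mem_Fil (c : ℂ) : algebraMap ℂ UU c ∈ Fil 0 :=
  ⟨algebraMap_mem_FU c, by simp [TrivSqZeroExt.algebraMap_eq_inl']⟩

theorem one_mem_Fil : (1 : UU) ∈ Fil 0 := by
  simpa using algebraMap_mem_Fil 1

instance Fil_fin (m : ℤ) : Module.Finite ℂ (Fil m) := by
  have := FU_fin m
  let f : (Fil m) →ₗ[ℂ] (FU m) × (FN m) :=
    { toFun := fun x => (⟨x.1.fst, x.2.1⟩, ⟨x.1.snd, x.2.2⟩)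
      map_add' := fun _ _ => rfl
      map_smul' := fun _ _ => rfl }
  refine Module.Finite.of_injective f ?_
  intro v w h
  have h1 := congrArg (fun p => (p.1 : U)) h
  have h2 := congrArg (fun p => (p.2 : NN)) h
  exact Subtype.ext (TrivSqZeroExt.ext h1 h2)

/-! ### the finite dimensional algebra `Lam` -/

/-- the finite dimensional algebra: 5x5 matrices over `UU` with `(j, i)` entry in `Fil (j - i)` -/
def Lam : Subalgebra ℂ (Matrix (Fin 5) (Fin 5) UU) where
  carrier := {A | ∀ j i : Fin 5, A j i ∈ Fil ((j : ℤ) - (i : ℤ))}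
  mul_mem' {A B} hA hB j i := by
    rw [Matrix.mul_apply]
    refine Submodule.sum_mem _ fun k _ => ?_
    have := Fil_mul _ _ _ _ (hA j k) (hB k i)
    rwa [sub_add_sub_cancel] at this
  add_mem' hA hB j i := add_mem (hA j i) (hB j i)
  algebraMap_mem' c j i := by
    rw [Matrix.algebraMap_matrix_apply]
    split_ifs with h
    · subst h; simpa using algebraMap_mem_Fil c
    · exact zero_mem _

instance Lam_fin : FiniteDimensional ℂ Lam := by
  let f : Lam →ₗ[ℂ] ((j i : Fin 5) → Fil ((j : ℤ) - (i : ℤ))) :=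
    { toFun := fun A j i => ⟨A.1 j i, A.2 j i⟩
      map_add' := fun _ _ => rfl
      map_smul' := fun _ _ => rfl }
  refine Module.Finite.of_injective f ?_
  intro v w h
  exact Subtype.ext (Matrix.ext fun j i => congrArg Subtype.val (congrFun (congrFun h j) i))

end Crest.Agent.R178
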