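import Crest.Agent.R178.Data

/-! Row 178: the operators `tw` form an anti-representation. -/

set_option autoImplicit false
set_option linter.unusedSectionVars false

open Finset

namespace Crest.Agent.R178

attribute [local instance 100] LieRing.ofAssociativeRing

/-- relations of a matrix representation -/
structure MatRel {ι : Type} [Fintype ι] (A : Fin 4 → Matrix ι ι ℂ) : Prop where
  h01 : A 0 * A 1 - A 1 * A 0 = A 1
  h02 : A 0 * A 2 - A 2 * A 0 = - A 2
  h03 : A 0 * A 3 - A 3 * A 0 = 0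
  h12 : A 1 * A 2 - A 2 * A 1 = A 0 - A 3
  h13 : A 1 * A 3 - A 3 * A 1 = A 1
  h23 : A 2 * A 3 - A 3 * A 2 = - A 2

section

variable {R Y ι : Type} [Ring R] [AddCommGroup Y] [Module R Y] [Module ℂ Y] [SMulCommClass ℂ R Y]
  [Fintype ι]

/-- action of a matrix on `ι → Y` -/
def mact (A : Matrix ι ι ℂ) (w : ι → Y) : ι → Y := fun l => ∑ k, A l k • w k

theorem mact_apply (A : Matrix ι ι ℂ) (w : ι → Y) (l : ι) : mact A w l = ∑ k, A l k • w k := rfl

theorem mact_mul (A B : Matrix ι ι ℂ) (w : ι → Y) : mact (A * B) w = mact A (mact B w) := by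
  funext l
  simp only [mact_apply, Matrix.mul_apply, Finset.sum_smul, Finset.smul_sum, mul_smul]
  rw [Finset.sum_comm]

theorem mact_sub (A B : Matrix ι ι ℂ) (w : ι → Y) : mact (A - B) w = mact A w - mact B w := by
  funext l
  simp only [mact_apply, Matrix.sub_apply, sub_smul, Finset.sum_sub_distrib, Pi.sub_apply]

theorem mact_neg (A : Matrix ι ι ℂ) (w : ι → Y) : mact (-A) w = - mact A w := by
  funext l
  simp only [mact_apply, Matrix.neg_apply, neg_smul, Finset.sum_neg_distrib, Pi.neg_apply]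

theorem mact_zero (w : ι → Y) : mact (0 : Matrix ι ι ℂ) w = 0 := by
  funext l
  simp [mact_apply]

theorem mact_sub' (A : Matrix ι ι ℂ) (v w : ι → Y) : mact A (v - w) = mact A v - mact A w := by
  funext l
  simp only [mact_apply, smul_sub, Finset.sum_sub_distrib, Pi.sub_apply]

/-- componentwise application -/
def rt (r : Y →ₗ[R] Y) (w : ι → Y) : ι → Y := fun l => r (w l)

theorem rt_sub (r : Y →ₗ[R] Y) (v w : ι → Y) : rt r (v - w) = rt r v - rt r w := by
  funext l; simp [rt]

theorem rt_mact (r : Y →ₗ[R] Y) (hr : ∀ (c : ℂ) y, r (c • y) = c • r y) (A : Matrix ι ι ℂ)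
    (w : ι → Y) : rt r (mact A w) = mact A (rt r w) := by
  funext l
  simp only [mact_apply, rt, map_sum, hr]

theorem tw_eq (r : Fin 4 → Y →ₗ[R] Y) (A : Fin 4 → Matrix ι ι ℂ) (a : Fin 4) (w : ι → Y) :
    tw r A a w = rt (r a) w - mact (A a) w := rfl

theorem tw_comm (r : Fin 4 → Y →ₗ[R] Y) (hr : ∀ a (c : ℂ) y, r a (c • y) = c • r a y)
    (A : Fin 4 → Matrix ι ι ℂ) (a b : Fin 4) (w : ι → Y) :
    tw r A b (tw r A a w) - tw r A a (tw r A b w) =
      (rt (r b) (rt (r a) w) - rt (r a) (rt (r b) w)) - mact (A a * A b - A b * A a) w := by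
  simp only [tw_eq, rt_sub, mact_sub', rt_mact _ (hr _), mact_sub, mact_mul]
  abel

theorem tw_anti (r : Fin 4 → Y →ₗ[R] Y) (hr : ∀ a (c : ℂ) y, r a (c • y) = c • r a y)
    (A : Fin 4 → Matrix ι ι ℂ) (hA : MatRel A) (h : AntiRep r) : AntiRep (tw r A) where
  h01 w := by
    rw [tw_comm r hr, hA.h01, tw_eq]
    congr 1
    funext l; exact h.h01 _
  h02 w := by
    rw [tw_comm r hr, hA.h02, tw_eq, mact_neg]
    have : rt (r 2) (rt (r 0) w) - rt (r 0) (rt (r 2) w) = - rt (r 2) w := by
      funext l; exact h.h02 _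
    rw [this]; abel
  h03 w := by
    rw [tw_comm r hr, hA.h03, mact_zero, sub_zero]
    funext l; exact h.h03 _
  h12 w := by
    rw [tw_comm r hr, hA.h12, tw_eq, tw_eq, mact_sub]
    have : rt (r 2) (rt (r 1) w) - rt (r 1) (rt (r 2) w) = rt (r 0) w - rt (r 3) w := by
      funext l; exact h.h12 _
    rw [this]; abel
  h13 w := by
    rw [tw_comm r hr, hA.h13, tw_eq]
    congr 1
    funext l; exact h.h13 _
  h23 w := by
    rw [tw_comm r hr, hA.h23, tw_eq, mact_neg]
    have : rt (r 3) (rt (r 2) w) - rt (r 2) (rt (r 3) w) = - rt (r 2) w := by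
      funext l; exact h.h23 _
    rw [this]; abel

end

section main

variable {M M' : Type} [AddCommGroup M] [Module ℂ M] [AddCommGroup M'] [Module ℂ M']
  (D : Datum M M') {ι : Type} [Fintype ι] [DecidableEq ι] (b : Module.Basis ι ℂ M)

theorem c01 : e 0 * e 1 - e 1 * e 0 = e 1 := by
  have h := r10 1; simp only [mul_one] at h; rw [h]; abel
theorem c02 : e 0 * e 2 - e 2 * e 0 = - e 2 := by
  have h := r20 1; simp only [mul_one] at h; rw [h]; abel
theorem c03 : e 0 * e 3 - e 3 * e 0 = 0 := by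
  have h := r30 1; simp only [mul_one] at h; rw [h]; abel
theorem c12 : e 1 * e 2 - e 2 * e 1 = e 0 - e 3 := by
  have h := r21 1; simp only [mul_one] at h; rw [h]; abel
theorem c13 : e 1 * e 3 - e 3 * e 1 = e 1 := by
  have h := r31 1; simp only [mul_one] at h; rw [h]; abel
theorem c23 : e 2 * e 3 - e 3 * e 2 = - e 2 := by
  have h := r32 1; simp only [mul_one] at h; rw [h]; abel

theorem Amat_sub_mul (a c : Fin 4) : Amat D b a * Amat D b c - Amat D b c * Amat D b a =
    LinearMap.toMatrix b b (D.a (e a * e c - e c * e a)) := by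
  rw [Amat, Amat, ← LinearMap.toMatrix_mul, ← LinearMap.toMatrix_mul, ← map_sub, ← map_mul, ← map_mul,
    ← map_sub]

theorem Amat_rel : MatRel (Amat D b) where
  h01 := by rw [Amat_sub_mul, c01]; rfl
  h02 := by rw [Amat_sub_mul, c02, map_neg, map_neg]; rfl
  h03 := by rw [Amat_sub_mul, c03, map_zero, map_zero]
  h12 := by rw [Amat_sub_mul, c12, map_sub, map_sub]; rfl
  h13 := by rw [Amat_sub_mul, c13]; rfl
  h23 := by rw [Amat_sub_mul, c23, map_neg, map_neg]; rfl

/-- right multiplications on anything where they make sense -/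
theorem anti_of_right {R Y : Type} [Ring R] [AddCommGroup Y] [Module R Y] (ρ : U → Y →ₗ[R] Y)
    (hm : ∀ u v y, ρ (u * v) y = ρ v (ρ u y)) (hs : ∀ u v y, ρ (u - v) y = ρ u y - ρ v y) :
    AntiRep (fun a => ρ (e a)) := by
  have h0 : ∀ y, ρ 0 y = 0 := fun y => by
    have := hs 0 0 y
    rwa [sub_zero, sub_self] at this
  have hn : ∀ u y, ρ (-u) y = - ρ u y := fun u y => by
    rw [← zero_sub, hs, h0, zero_sub]
  constructor
  · intro w; rw [← hm, ← hm, ← hs, c01]
  · intro w; rw [← hm, ← hm, ← hs, c02, hn]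
  · intro w; rw [← hm, ← hm, ← hs, c03, h0]
  · intro w; rw [← hm, ← hm, ← hs, c12, hs]
  · intro w; rw [← hm, ← hm, ← hs, c13]
  · intro w; rw [← hm, ← hm, ← hs, c23, hn]

theorem tU_anti : AntiRep (tU D b) :=
  tw_anti _ (fun a c y => by simp) _ (Amat_rel D b)
    (anti_of_right (R := ℂ) (fun u => LinearMap.mulRight ℂ u) (fun u v y => by simp [mul_assoc])
      (fun u v y => by simp [mul_sub]))

theorem tV_anti : AntiRep (tV D b) :=
  tw_anti _ (fun a c y => by simp) _ (Amat_rel D b)
    (anti_of_right (R := ℂ) ract (fun u v y => ract_mul _ _ _)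
      (fun u v y => by ext; simp [mul_sub]))

theorem tN_anti : AntiRep (tN D b) :=
  tw_anti _ (fun a c y => by simp) _ (Amat_rel D b)
    (anti_of_right (R := ℂ) rN
      (fun u v y => by
        obtain ⟨y, rfl⟩ := mkN_surj y
        rw [rN_mk, rN_mk, rN_mk, ract_mul])
      (fun u v y => by
        obtain ⟨y, rfl⟩ := mkN_surj y
        rw [rN_mk, rN_mk, rN_mk, ← map_sub]
        congr 1
        ext; simp [mul_sub]))

theorem tUU_anti : AntiRep (tUU D b) :=
  tw_anti _ (fun a c y => by simp) _ (Amat_rel D b)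
    (anti_of_right (R := UU) (fun u => LinearMap.toSpanSingleton UU UU (TrivSqZeroExt.inl u))
      (fun u v y => by simp [TrivSqZeroExt.inl_mul, mul_assoc])
      (fun u v y => by simp [mul_sub]))

end main

end Crest.Agent.R178
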