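import Crest.Agent.R178.Alg

/-!
Row 178: the modules `M_n`, `E_n` (through an abstract `Datum`), column modules over `Lam`,
and the exact statements of the remaining modules.
-/

set_option autoImplicit false

open Finset

namespace Crest.Agent.R178

attribute [local instance 100] LieRing.ofAssociativeRing

/-! ### column modules over `Lam` -/

section Col

set_option linter.unusedSectionVars false
variable (X : Type) [AddCommGroup X] [Module ℂ X] [Module UU X] [IsScalarTower ℂ UU X]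

/-- column vectors with entries in a `UU`-module -/
def Col (X : Type) : Type := Fin 5 → X

instance : AddCommGroup (Col X) := inferInstanceAs (AddCommGroup (Fin 5 → X))
instance : Module ℂ (Col X) := inferInstanceAs (Module ℂ (Fin 5 → X))

noncomputable instance : Module Lam (Col X) where
  smul A x := fun j => ∑ i, A.1 j i • (x i : X)
  one_smul x := by
    funext j
    change ∑ i, (1 : Matrix (Fin 5) (Fin 5) UU) j i • x i = x j
    rw [Finset.sum_eq_single j]
    · rw [Matrix.one_apply_eq, one_smul]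
    · intro i _ hi
      rw [Matrix.one_apply_ne (Ne.symm hi), zero_smul]
    · intro h; exact absurd (Finset.mem_univ j) h
  mul_smul A B x := by
    funext j
    change ∑ i, (A.1 * B.1) j i • x i = ∑ i, A.1 j i • ∑ k, B.1 i k • x k
    simp only [Matrix.mul_apply, Finset.sum_smul, Finset.smul_sum, mul_smul]
    rw [Finset.sum_comm]
  smul_zero A := by
    funext j
    change ∑ i, A.1 j i • (0 : X) = 0
    simp
  smul_add A x y := by
    funext j
    change ∑ i, A.1 j i • (x i + y i) = ∑ i, A.1 j i • x i + ∑ i, A.1 j i • y i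
    simp [Finset.sum_add_distrib]
  add_smul A B x := by
    funext j
    change ∑ i, (A.1 j i + B.1 j i) • x i = ∑ i, A.1 j i • x i + ∑ i, B.1 j i • x i
    simp [add_smul, Finset.sum_add_distrib]
  zero_smul x := by
    funext j
    change ∑ i, (0 : UU) • x i = 0
    simp

theorem Lam_smul_apply (A : Lam) (x : Col X) (j : Fin 5) :
    (A • x) j = ∑ i, A.1 j i • (x i : X) := rfl

instance : IsScalarTower ℂ Lam (Col X) where
  smul_assoc c A x := by
    funext j
    change ∑ i, (c • A.1 j i) • x i = c • ∑ i, A.1 j i • x i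
    simp [Finset.smul_sum, smul_assoc]

/-- compatibility of a filtration with the action of `UU` -/
def Compat (F : ℤ → Submodule ℂ X) : Prop :=
  ∀ (m n : ℤ) (u : UU) (x : X), u ∈ Fil m → x ∈ F n → u • x ∈ F (m + n)

variable {X}

/-- the Rees-type `Lam`-module of a filtered `UU`-module -/
def Rees (F : ℤ → Submodule ℂ X) (hF : Compat X F) : Submodule Lam (Col X) where
  carrier := {x | ∀ j : Fin 5, x j ∈ F (j : ℤ)}
  add_mem' hx hy j := add_mem (hx j) (hy j)
  zero_mem' j := zero_mem _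
  smul_mem' A x hx j := by
    rw [Lam_smul_apply]
    refine Submodule.sum_mem _ fun i _ => ?_
    have := hF _ _ _ _ (A.2 j i) (hx i)
    rwa [sub_add_cancel] at this

end Col

/-- a `UU`-module structure given by an algebra homomorphism -/
def Act {X : Type} [AddCommGroup X] [Module ℂ X] (_f : UU →ₐ[ℂ] Module.End ℂ X) : Type := X

section Act
variable {X : Type} [AddCommGroup X] [Module ℂ X] (f : UU →ₐ[ℂ] Module.End ℂ X)

instance : AddCommGroup (Act f) := inferInstanceAs (AddCommGroup X)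
instance : Module ℂ (Act f) := inferInstanceAs (Module ℂ X)
noncomputable instance : Module UU (Act f) where
  smul u x := f u x
  one_smul x := by change f 1 x = x; rw [map_one]; rfl
  mul_smul a b x := by change f (a * b) x = f a (f b x); rw [map_mul]; rfl
  smul_zero a := map_zero (f a)
  smul_add a x y := map_add (f a) x y
  add_smul a b x := by change f (a + b) x = f a x + f b x; rw [map_add]; rfl
  zero_smul x := by change f 0 x = 0; rw [map_zero]; rfl

theorem Act_smul (u : UU) (x : Act f) : u • x = (f u (x : X) : X) := rfl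

instance : IsScalarTower ℂ UU (Act f) where
  smul_assoc c u x := by change f (c • u) x = c • f u x; rw [map_smul]; rfl

end Act

/-! ### the data `M = M_n`, `M' = M_{n-1}` -/

/-- `M = M_n` (polynomials of degree `n` in `x_0, x_1`), `M' = M_{n-1}`, `d k = ∂/∂x_k`, `x k` =
multiplication by `x_k`, `ν = n + 1`. -/
structure Datum (M M' : Type) [AddCommGroup M] [Module ℂ M] [AddCommGroup M'] [Module ℂ M'] where
  a : U →ₐ[ℂ] Module.End ℂ M
  a' : U →ₐ[ℂ] Module.End ℂ M'
  d : Fin 2 → M →ₗ[ℂ] M'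
  x : Fin 2 → M' →ₗ[ℂ] M
  ν : ℂ
  hν : ν ≠ 0
  hE : ∀ (b : Fin 4) m, a (e b) m = x (rw' b) (d (cl' b) m)
  hdx : ∀ m', ∑ k, d k (x k m') = ν • m'
  hxd : ∀ m, ∑ k, x k (d k m) = (ν - 1) • m
  hd : ∀ (b : Fin 4) (k : Fin 2) m,
    a' (e b) (d k m) - d k (a (e b) m) = - if k = rw' b then d (cl' b) m else 0
  hx : ∀ (b : Fin 4) (k : Fin 2) m',
    a (e b) (x k m') - x k (a' (e b) m') = if k = cl' b then x (rw' b) m' else 0

/-- a Lie representation of `gl_2` on a one- or two-step family: existence of all data (T3).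
`rep n` is the action of `U` on `M_n = M n`, and `Datum` for `(M (n+1), M n)` uses `rep (n+1)`, `rep n`;
for `n = 0` we use `M' = PUnit`. -/
def DatumStmt : Prop :=
  ∃ (M : ℕ → Type) (_ : ∀ n, AddCommGroup (M n)) (_ : ∀ n, Module ℂ (M n))
    (rep : ∀ n, U →ₐ[ℂ] Module.End ℂ (M n)),
    (∀ n, Module.Finite ℂ (M n)) ∧ (∀ n, Nontrivial (M n)) ∧ Module.finrank ℂ (M 0) = 1 ∧
    (∃ D : Datum (M 0) PUnit, D.a = rep 0) ∧
    (∀ n, ∃ D : Datum (M (n + 1)) (M n), D.a = rep (n + 1) ∧ D.a' = rep n)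

section D

variable {M M' : Type} [AddCommGroup M] [Module ℂ M] [AddCommGroup M'] [Module ℂ M']
  (D : Datum M M')

/-- `UU` acts on `M` through `U` -/
noncomputable def actU {X : Type} [AddCommGroup X] [Module ℂ X] (f : U →ₐ[ℂ] Module.End ℂ X) :
    UU →ₐ[ℂ] Module.End ℂ X := f.comp (TrivSqZeroExt.fstHom ℂ U NN)

theorem actU_apply {X : Type} [AddCommGroup X] [Module ℂ X] (f : U →ₐ[ℂ] Module.End ℂ X)
    (u : UU) (x : X) : actU f u x = f u.fst x := rfl

/-- `V* ⊗ U` acts `M → M'` : `d_k ⊗ u` acts by `d_k u` -/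
noncomputable def pV : (Fin 2 → U) →ₗ[ℂ] (M →ₗ[ℂ] M') where
  toFun v := ∑ k, (D.d k).comp (D.a (v k))
  map_add' v w := by
    simp [LinearMap.comp_add, Finset.sum_add_distrib]
  map_smul' c v := by
    simp [LinearMap.comp_smul]

theorem pV_apply (v : Fin 2 → U) (m : M) : pV D v m = ∑ k, D.d k (D.a (v k) m) := by
  simp [pV]

/-- `c` on `M²` equals `ν - x ∘ div` (first component) -/
theorem Datum.c_zero (D : Datum M M') (m : Fin 2 → M) :
    D.a (e 3) (m 0) + m 0 - D.a (e 1) (m 1) = D.ν • m 0 - D.x 0 (∑ k, D.d k (m k)) := by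
  have h := D.hxd (m 0)
  rw [D.hE 3 (m 0), D.hE 1 (m 1)]
  simp only [Fin.sum_univ_two, map_add, sub_smul, one_smul] at h ⊢
  have : D.ν • m 0 = D.x 0 (D.d 0 (m 0)) + D.x 1 (D.d 1 (m 0)) + m 0 := by
    rw [h]; abel
  rw [this]
  simp only [rw', cl']
  change D.x 1 (D.d 1 (m 0)) + m 0 - D.x 0 (D.d 1 (m 1)) = _
  abel

/-- `c` on `M²` equals `ν - x ∘ div` (second component) -/
theorem Datum.c_one (D : Datum M M') (m : Fin 2 → M) :
    - D.a (e 2) (m 0) + D.a (e 0) (m 1) + m 1 = D.ν • m 1 - D.x 1 (∑ k, D.d k (m k)) := by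
  have h := D.hxd (m 1)
  rw [D.hE 2 (m 0), D.hE 0 (m 1)]
  simp only [Fin.sum_univ_two, map_add, sub_smul, one_smul] at h ⊢
  have : D.ν • m 1 = D.x 0 (D.d 0 (m 1)) + D.x 1 (D.d 1 (m 1)) + m 1 := by
    rw [h]; abel
  rw [this]
  change - D.x 1 (D.d 0 (m 0)) + D.x 0 (D.d 0 (m 1)) + m 1 = _
  abel

theorem Datum.div_c (D : Datum M M') (m : Fin 2 → M) :
    D.d 0 (D.a (e 3) (m 0) + m 0 - D.a (e 1) (m 1)) +
      D.d 1 (- D.a (e 2) (m 0) + D.a (e 0) (m 1) + m 1) = 0 := by
  rw [D.c_zero, D.c_one]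
  have h := D.hdx (∑ k, D.d k (m k))
  simp only [Fin.sum_univ_two] at h ⊢
  simp only [map_sub, map_smul]
  rw [sub_add_sub_comm, h]
  simp

theorem pV_cmap (v : Fin 2 → U) : pV D (cmap v) = 0 := by
  refine LinearMap.ext fun m => ?_
  rw [pV_apply, Fin.sum_univ_two, cmap_zero', cmap_one']
  have := D.div_c (fun k => D.a (v k) m)
  simpa using this

/-- the pairing `N → Hom (M, M')` -/
noncomputable def pN : NN →ₗ[ℂ] (M →ₗ[ℂ] M') :=
  (LinearMap.range cmap).liftQ (pV D) (by
    rintro _ ⟨v, rfl⟩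
    exact pV_cmap D v)

@[simp] theorem pN_mk (v : Fin 2 → U) : pN D (mkN v) = pV D v := rfl

theorem U_induction' {P : U → Prop} (h1 : ∀ c : ℂ, P (algebraMap ℂ U c))
    (he : ∀ a, P (e a))
    (hadd : ∀ a b, P a → P b → P (a + b)) (hmul : ∀ a b, P a → P b → P (a * b)) (u : U) : P u := by
  refine U_induction h1 (fun x => ?_) hadd hmul u
  rw [gl2_eq x]
  simp only [map_add, map_smul]
  simp only [Algebra.smul_def]
  exact hadd _ _ (hadd _ _ (hadd _ _ (hmul _ _ (h1 _) (he 0)) (hmul _ _ (h1 _) (he 1)))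
    (hmul _ _ (h1 _) (he 2))) (hmul _ _ (h1 _) (he 3))

theorem pV_lact (b : Fin 4) (v : Fin 2 → U) (m : M) :
    pV D (lact (eg b) v) m = D.a' (e b) (pV D v m) := by
  have key : ∀ k, D.a' (e b) (D.d k (D.a (v k) m)) =
      D.d k (D.a (e b) (D.a (v k) m)) - if k = rw' b then D.d (cl' b) (D.a (v k) m) else 0 := by
    intro k
    have := D.hd b k (D.a (v k) m)
    rw [sub_eq_iff_eq_add] at this
    rw [this]; abel
  rw [pV_apply, pV_apply, map_sum]
  simp only [key, lact_eg, map_sub, map_mul, Module.End.mul_apply, LinearMap.sub_apply,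
    Finset.sum_sub_distrib]
  congr 1
  rw [Fin.sum_univ_two, Fin.sum_univ_two]
  fin_cases b <;> simp [rw', cl']

theorem pV_lU (u : U) (v : Fin 2 → U) (m : M) : pV D (lU u v) m = D.a' u (pV D v m) := by
  induction u using U_induction' generalizing v with
  | h1 c => simp [Algebra.algebraMap_eq_smul_one]
  | he b => rw [e, lU_ι, pV_lact]; rfl
  | hadd a b ha hb => simp [map_add, ha, hb]
  | hmul a b ha hb => simp [map_mul, ha, hb]

theorem pV_ract (u : U) (v : Fin 2 → U) (m : M) : pV D (ract u v) m = pV D v (D.a u m) := by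
  simp [pV_apply]

theorem pN_smul (u : U) (n : NN) (m : M) : pN D (u • n) m = D.a' u (pN D n m) := by
  obtain ⟨v, rfl⟩ := mkN_surj n
  rw [smul_def, lN_mk, pN_mk, pN_mk, pV_lU]

theorem pN_op_smul (u : U) (n : NN) (m : M) : pN D (MulOpposite.op u • n) m = pN D n (D.a u m) := by
  obtain ⟨v, rfl⟩ := mkN_surj n
  rw [op_smul_def, MulOpposite.unop_op, rN_mk, pN_mk, pN_mk, pV_ract]

/-- `U`-part of the action on `E = M × M'` -/
noncomputable def prodU : U →ₐ[ℂ] Module.End ℂ (M × M') where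
  toFun u := (D.a u).prodMap (D.a' u)
  map_one' := by ext <;> simp
  map_mul' a b := by ext <;> simp
  map_zero' := by ext <;> simp
  map_add' a b := by ext <;> simp
  commutes' c := by ext <;> simp [Algebra.algebraMap_eq_smul_one]

/-- `N`-part of the action on `E = M × M'` -/
noncomputable def prodN : NN →ₗ[ℂ] Module.End ℂ (M × M') where
  toFun n := (LinearMap.inr ℂ M M').comp ((pN D n).comp (LinearMap.fst ℂ M M'))
  map_add' a b := by ext <;> simp
  map_smul' a b := by ext <;> simp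

/-- action of `UU` on `E = M × M'` -/
noncomputable def actE : UU →ₐ[ℂ] Module.End ℂ (M × M') :=
  TrivSqZeroExt.lift (prodU D) (prodN D)
    (by intro x y; ext <;> simp [prodN])
    (by intro u n; ext <;> simp [prodN, prodU, pN_smul])
    (by intro u n; ext <;> simp [prodN, prodU, pN_op_smul])

theorem actE_apply (u : UU) (z : M × M') :
    actE D u z = (D.a u.fst z.1, D.a' u.fst z.2 + pN D u.snd z.1) := by
  rw [actE, TrivSqZeroExt.lift_def]
  simp [prodU, prodN]

end D

/-! ### vectors `ι → Y` and the operators `t a` -/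

section tw

variable {R Y ι : Type} [Ring R] [AddCommGroup Y] [Module R Y] [Module ℂ Y] [SMulCommClass ℂ R Y]
  [Fintype ι]

/-- `w ⊗ m ↦ w e_a ⊗ m - w ⊗ e_a m`, where `r a` is right multiplication by `e_a` and `A a` the matrix
of `e_a` -/
noncomputable def tw (r : Fin 4 → Y →ₗ[R] Y) (A : Fin 4 → Matrix ι ι ℂ) (a : Fin 4) :
    (ι → Y) →ₗ[R] (ι → Y) where
  toFun w := fun l => r a (w l) - ∑ k, A a l k • w k
  map_add' v w := by
    funext l; simp only [Pi.add_apply, map_add, smul_add, Finset.sum_add_distrib]; abel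
  map_smul' c v := by
    funext l
    simp only [Pi.smul_apply, map_smul, RingHom.id_apply, smul_sub, Finset.smul_sum]
    congr 1
    exact Finset.sum_congr rfl fun a _ => smul_comm _ _ _

theorem tw_apply (r : Fin 4 → Y →ₗ[R] Y) (A : Fin 4 → Matrix ι ι ℂ) (a : Fin 4) (w : ι → Y) (l : ι) :
    tw r A a w l = r a (w l) - ∑ k, A a l k • w k := rfl

end tw

section main

variable {M M' : Type} [AddCommGroup M] [Module ℂ M] [AddCommGroup M'] [Module ℂ M']
  (D : Datum M M') {ι : Type} [Fintype ι] [DecidableEq ι] (b : Module.Basis ι ℂ M)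

/-- matrices of the generators on `M` -/
noncomputable def Amat (a : Fin 4) : Matrix ι ι ℂ := LinearMap.toMatrix b b (D.a (e a))

/-- operators on `U ⊗ M` -/
noncomputable def tU (a : Fin 4) : (ι → U) →ₗ[ℂ] (ι → U) :=
  tw (fun a => LinearMap.mulRight ℂ (e a)) (Amat D b) a

/-- operators on `V* ⊗ U ⊗ M` -/
noncomputable def tV (a : Fin 4) : (ι → Fin 2 → U) →ₗ[ℂ] (ι → Fin 2 → U) :=
  tw (fun a => ract (e a)) (Amat D b) a

/-- operators on `N ⊗ M` -/
noncomputable def tN (a : Fin 4) : (ι → NN) →ₗ[ℂ] (ι → NN) :=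
  tw (fun a => rN (e a)) (Amat D b) a

/-- operators on `UU ⊗ M` -/
noncomputable def tUU (a : Fin 4) : (ι → UU) →ₗ[UU] (ι → UU) :=
  tw (fun a => LinearMap.toSpanSingleton UU UU (TrivSqZeroExt.inl (e a))) (Amat D b) a

/-- vectors with entries in `F m` -/
def Vec {Y : Type} [AddCommGroup Y] [Module ℂ Y] (ι : Type) (F : ℤ → Submodule ℂ Y) (m : ℤ) :
    Submodule ℂ (ι → Y) where
  carrier := {v | ∀ k, v k ∈ F m}
  add_mem' hv hw k := add_mem (hv k) (hw k)
  zero_mem' _ := zero_mem _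
  smul_mem' c _ hv k := Submodule.smul_mem _ c (hv k)

/-- basis vectors of `M` inside `E` -/
noncomputable def bE (l : ι) : Act (actE D) := ((b l, 0) : M × M')

/-- the augmentation `UU ⊗ M → E` -/
noncomputable def epsE : (ι → UU) →ₗ[UU] Act (actE D) where
  toFun w := ∑ l, w l • bE D b l
  map_add' v w := by simp [add_smul, Finset.sum_add_distrib]
  map_smul' c v := by simp [mul_smul, Finset.smul_sum]

/-- the main exactness statement over `UU` (T5) -/
structure UUExact : Prop where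
  anti : AntiRep (tUU D b)
  k4 : ∀ (j : ℤ) (y : ι → UU), y ∈ Vec ι Fil j → D4 (tUU D b) y = 0 → y = 0
  k3 : ∀ (j : ℤ) (y : Fin 4 → ι → UU), (∀ a, y a ∈ Vec ι Fil j) → D3 (tUU D b) y = 0 →
    ∃ x, x ∈ Vec ι Fil (j - 1) ∧ D4 (tUU D b) x = y
  k2 : ∀ (j : ℤ) (y : Fin 6 → ι → UU), (∀ a, y a ∈ Vec ι Fil j) → D2 (tUU D b) y = 0 →
    ∃ x : Fin 4 → ι → UU, (∀ a, x a ∈ Vec ι Fil (j - 1)) ∧ D3 (tUU D b) x = y
  eps_D1 : ∀ y, epsE D b (D1 (tUU D b) y) = 0
  eps_ker : ∀ (j : ℤ) (y : ι → UU), 0 ≤ j → y ∈ Vec ι Fil j → epsE D b y = 0 →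
    ∃ x : Fin 4 → ι → UU, (∀ a, x a ∈ Vec ι Fil (j - 1)) ∧ D1 (tUU D b) x = y
  eps_surj : ∀ z, ∃ y ∈ Vec ι Fil 0, epsE D b y = z
  cls : ∃ z : LinearMap.ker (D1 (tUU D b)) →ₗ[UU] Act (actU D.a'),
    (∀ (j : ℤ) (y : LinearMap.ker (D1 (tUU D b))), -1 ≤ j → (∀ a, y.1 a ∈ Vec ι Fil j) → z y = 0 →
      ∃ x : Fin 6 → ι → UU, (∀ a, x a ∈ Vec ι Fil (j - 1)) ∧ D2 (tUU D b) x = y.1) ∧
    (∀ (y : LinearMap.ker (D1 (tUU D b))) (x : Fin 6 → ι → UU), D2 (tUU D b) x = y.1 → z y = 0) ∧
    (∀ m, ∃ y : LinearMap.ker (D1 (tUU D b)), (∀ a, y.1 a ∈ Vec ι Fil (-1)) ∧ z y = m)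

end main

/-- T5 -/
def UUExactStmt : Prop :=
  ∀ (M M' : Type) [AddCommGroup M] [Module ℂ M] [AddCommGroup M'] [Module ℂ M']
    (D : Datum M M') (ι : Type) [Fintype ι] [DecidableEq ι] (b : Module.Basis ι ℂ M), UUExact D b

end Crest.Agent.R178
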