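import Mathlib

/-!
Row 178 (S0268): finitistic dimension.  Part 1: `U = U(gl_2)`, its filtration, and the
Chevalley-Eilenberg type complex attached to four operators `t 0, .., t 3` on a module `W`
(index `0 = E11`, `1 = E12`, `2 = E21`, `3 = E22`).
-/

set_option autoImplicit false

open Finset

namespace Crest.Agent.R178

attribute [local instance 100] LieRing.ofAssociativeRing

/-- the Lie algebra `gl_2` -/
abbrev gl2 := Matrix (Fin 2) (Fin 2) ℂ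

/-- `U(gl_2)` -/
abbrev U := UniversalEnvelopingAlgebra ℂ gl2

/-- row index of the `a`-th basis vector -/
def rw' : Fin 4 → Fin 2 := ![0, 0, 1, 1]
/-- column index of the `a`-th basis vector -/
def cl' : Fin 4 → Fin 2 := ![0, 1, 0, 1]

/-- basis of `gl_2` : `0 = E11`, `1 = E12`, `2 = E21`, `3 = E22` -/
def eg (a : Fin 4) : gl2 := Matrix.single (rw' a) (cl' a) 1

/-- the generators of `U` : `0 = E11`, `1 = E12`, `2 = E21`, `3 = E22` -/
noncomputable def e (a : Fin 4) : U := UniversalEnvelopingAlgebra.ι ℂ (eg a)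

/-- span of `1, E_ab` -/
noncomputable def G1 : Submodule ℂ U := Submodule.span ℂ (insert 1 (Set.range e))

/-- the PBW filtration, `FU m = 0` for `m < 0` -/
noncomputable def FU (m : ℤ) : Submodule ℂ U := if 0 ≤ m then G1 ^ m.toNat else ⊥

/-- Everything we need from PBW (operators `mul a` = commutative multiplication by `ξ_a`,
`der a` = derivative with respect to `ξ_a`, in the model `U ≅ ℂ[ξ_0, .., ξ_3]`). -/
structure PBWData (mul der : Fin 4 → U →ₗ[ℂ] U) : Prop where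
  mul_mul : ∀ a b u, mul a (mul b u) = mul b (mul a u)
  der_der : ∀ a b u, der a (der b u) = der b (der a u)
  der_mul : ∀ a b u, der a (mul b u) = mul b (der a u) + if a = b then u else 0
  mul_mem : ∀ a (m : ℤ) u, u ∈ FU m → mul a u ∈ FU (m + 1)
  der_mem : ∀ a (m : ℤ) u, u ∈ FU m → der a u ∈ FU (m - 1)
  euler : ∀ (m : ℤ) u, u ∈ FU m → (∑ a, mul a (der a u)) - (m : ℂ) • u ∈ FU (m - 1)
  right : ∀ a (m : ℤ) u, u ∈ FU m → u * e a - mul a u ∈ FU m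
  left : ∀ a (m : ℤ) u, u ∈ FU m → e a * u - mul a u ∈ FU m
  det_strict : ∀ (m : ℤ) u, mul 0 (mul 3 u) - mul 1 (mul 2 u) ∈ FU (m + 2) → u ∈ FU m

/-- PBW module (T1) -/
def PBWStmt : Prop :=
  (∃ mul der : Fin 4 → U →ₗ[ℂ] U, PBWData mul der) ∧
  (∀ m : ℤ, m < 0 → FU m = ⊥) ∧ (∀ m n : ℤ, m ≤ n → FU m ≤ FU n) ∧
  (∀ u : U, ∃ m : ℤ, 0 ≤ m ∧ u ∈ FU m) ∧ (∀ u ∈ FU 0, ∃ c : ℂ, u = algebraMap ℂ U c) ∧
  (∀ m : ℤ, Module.Finite ℂ (FU m)) ∧ (∀ (m n : ℤ) (u v : U), u ∈ FU m → v ∈ FU n → u * v ∈ FU (m + n)) ∧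
  (1 : U) ∈ FU 0 ∧ (∀ a, e a ∈ FU 1) ∧ Function.Injective (algebraMap ℂ U)

section complex

variable {R W : Type} [Ring R] [AddCommGroup W] [Module R W]

/-- relations satisfied by right multiplications by `e a` (an anti-representation of `gl_2`) -/
structure AntiRep (t : Fin 4 → W →ₗ[R] W) : Prop where
  h01 : ∀ w, t 1 (t 0 w) - t 0 (t 1 w) = t 1 w
  h02 : ∀ w, t 2 (t 0 w) - t 0 (t 2 w) = - t 2 w
  h03 : ∀ w, t 3 (t 0 w) - t 0 (t 3 w) = 0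
  h12 : ∀ w, t 2 (t 1 w) - t 1 (t 2 w) = t 0 w - t 3 w
  h13 : ∀ w, t 3 (t 1 w) - t 1 (t 3 w) = t 1 w
  h23 : ∀ w, t 3 (t 2 w) - t 2 (t 3 w) = - t 2 w

/-- `W ⊗ g → W` -/
def D1 (t : Fin 4 → W →ₗ[R] W) : (Fin 4 → W) →ₗ[R] W where
  toFun y := t 0 (y 0) + t 1 (y 1) + t 2 (y 2) + t 3 (y 3)
  map_add' x y := by simp only [Pi.add_apply, map_add]; abel
  map_smul' r y := by simp only [Pi.smul_apply, map_smul, RingHom.id_apply, smul_add]

/-- `W ⊗ Λ² g → W ⊗ g`; pairs are ordered `01, 02, 03, 12, 13, 23` -/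
def D2 (t : Fin 4 → W →ₗ[R] W) : (Fin 6 → W) →ₗ[R] (Fin 4 → W) where
  toFun y := ![- t 1 (y 0) - t 2 (y 1) - t 3 (y 2) - y 3,
    t 0 (y 0) - y 0 - t 2 (y 3) - t 3 (y 4) - y 4,
    t 0 (y 1) + y 1 + t 1 (y 3) - t 3 (y 5) + y 5,
    t 0 (y 2) + y 3 + t 1 (y 4) + t 2 (y 5)]
  map_add' x y := by
    ext i; fin_cases i <;> simp [map_add] <;> abel
  map_smul' r y := by
    ext i; fin_cases i <;> simp [smul_add, smul_sub]

/-- `W ⊗ Λ³ g → W ⊗ Λ² g`; triples are ordered `012, 013, 023, 123` -/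
def D3 (t : Fin 4 → W →ₗ[R] W) : (Fin 4 → W) →ₗ[R] (Fin 6 → W) where
  toFun y := ![t 2 (y 0) + t 3 (y 1) + y 1,
    - t 1 (y 0) + t 3 (y 2) - y 2,
    - y 0 - t 1 (y 1) - t 2 (y 2) - y 3,
    t 0 (y 0) + t 3 (y 3),
    t 0 (y 1) - y 1 - t 2 (y 3),
    t 0 (y 2) + y 2 + t 1 (y 3)]
  map_add' x y := by
    ext i; fin_cases i <;> simp [map_add] <;> abel
  map_smul' r y := by
    ext i; fin_cases i <;> simp [smul_add, smul_sub]

/-- `W ⊗ Λ⁴ g → W ⊗ Λ³ g` -/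
def D4 (t : Fin 4 → W →ₗ[R] W) : W →ₗ[R] (Fin 4 → W) where
  toFun w := ![- t 3 w, t 2 w, - t 1 w, t 0 w]
  map_add' x y := by
    ext i; fin_cases i <;> simp [map_add] <;> abel
  map_smul' r y := by
    ext i; fin_cases i <;> simp

end complex

/-- hypotheses of the filtered Koszul lemma -/
structure FilKos {W : Type} [AddCommGroup W] [Module ℂ W] (G : ℤ → Submodule ℂ W)
    (t mul der : Fin 4 → W →ₗ[ℂ] W) : Prop where
  neg : ∀ m : ℤ, m < 0 → G m = ⊥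
  mono : ∀ m n : ℤ, m ≤ n → G m ≤ G n
  mul_mul : ∀ a b u, mul a (mul b u) = mul b (mul a u)
  der_der : ∀ a b u, der a (der b u) = der b (der a u)
  der_mul : ∀ a b u, der a (mul b u) = mul b (der a u) + if a = b then u else 0
  mul_mem : ∀ a (m : ℤ) u, u ∈ G m → mul a u ∈ G (m + 1)
  der_mem : ∀ a (m : ℤ) u, u ∈ G m → der a u ∈ G (m - 1)
  euler : ∀ (m : ℤ) u, u ∈ G m → (∑ a, mul a (der a u)) - (m : ℂ) • u ∈ G (m - 1)
  top : ∀ a (m : ℤ) u, u ∈ G m → t a u - mul a u ∈ G m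
  anti : AntiRep t

/-- filtered exactness of the complex (T2) -/
structure FilExact {W : Type} [AddCommGroup W] [Module ℂ W] (G : ℤ → Submodule ℂ W)
    (t : Fin 4 → W →ₗ[ℂ] W) : Prop where
  k0 : ∀ (j : ℤ) (y : W), y ∈ G j →
    ∃ x : Fin 4 → W, (∀ a, x a ∈ G (j - 1)) ∧ y - D1 t x ∈ G 0
  k1 : ∀ (j : ℤ) (y : Fin 4 → W), (∀ a, y a ∈ G j) → D1 t y = 0 →
    ∃ x : Fin 6 → W, (∀ a, x a ∈ G (j - 1)) ∧ D2 t x = y
  k2 : ∀ (j : ℤ) (y : Fin 6 → W), (∀ a, y a ∈ G j) → D2 t y = 0 →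
    ∃ x : Fin 4 → W, (∀ a, x a ∈ G (j - 1)) ∧ D3 t x = y
  k3 : ∀ (j : ℤ) (y : Fin 4 → W), (∀ a, y a ∈ G j) → D3 t y = 0 →
    ∃ x : W, x ∈ G (j - 1) ∧ D4 t x = y
  k4 : ∀ (j : ℤ) (y : W), y ∈ G j → D4 t y = 0 → y = 0

/-- filtered Koszul lemma (T2).  Proof: for `y` of total degree `N = j + i ≥ 1` (`i` = exterior degree,
`y` a cycle) `N • y - D (h y)` lies one filtration step lower, where `h` is the Koszul homotopy
`h y = ∑ e_a ∧ der a y`; induct on `j`. -/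
def FilKosStmt : Prop :=
  ∀ (W : Type) [AddCommGroup W] [Module ℂ W] (G : ℤ → Submodule ℂ W)
    (t mul der : Fin 4 → W →ₗ[ℂ] W), FilKos G t mul der → FilExact G t

end Crest.Agent.R178
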