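import Mathlib.CategoryTheory.Abelian.Projective.Dimension
import Mathlib.Algebra.Category.ModuleCat.Projective
import Mathlib.Algebra.Category.ModuleCat.EnoughInjectives
import Mathlib.Algebra.Homology.ShortComplex.ModuleCat
import Mathlib.RingTheory.Finiteness.Basic

/-!
Row 178 (S0268): the abstract homological part.

Everything is stated at the level of modules (`Function.Exact`, `Function.Injective`, ...).
`PDLT R M n` means "projective dimension of `M` is `< n`".
* `pd_step` : if `M'` has projective dimension exactly `e ≥ 4` then `M` has exactly `e + 2`.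
* `pd_base` : a length 4 resolution whose last map is not split mono has length exactly 4.
* `pd_conclusion` : modules of unbounded finite projective dimension.
-/

set_option autoImplicit false

namespace Crest.Agent.R178

open CategoryTheory

section

variable (R : Type) [Ring R]

/-- `M` has projective dimension `< n` over `R`. -/
def PDLT (M : Type) [AddCommGroup M] [Module R M] (n : ℕ) : Prop :=
  HasProjectiveDimensionLT (ModuleCat.of R M) n

variable {R}

variable {A B C : Type} [AddCommGroup A] [Module R A] [AddCommGroup B] [Module R B]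
  [AddCommGroup C] [Module R C]

lemma PDLT.mono {n m : ℕ} (h : PDLT R A n) (hnm : n ≤ m) : PDLT R A m :=
  have : HasProjectiveDimensionLT (ModuleCat.of R A) n := h
  hasProjectiveDimensionLT_of_ge _ n m hnm

lemma PDLT.of_projective [Module.Projective R A] : PDLT R A 1 := by
  have : Projective (ModuleCat.of R A) :=
    (IsProjective.iff_projective (R := R) A).1 inferInstance
  exact projective_iff_hasProjectiveDimensionLT_one.1 this

lemma PDLT.projective (h : PDLT R A 1) : Module.Projective R A := by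
  have : Projective (ModuleCat.of R A) := projective_iff_hasProjectiveDimensionLT_one.2 h
  exact (IsProjective.iff_projective (R := R) A).2 this

/-- The short exact sequence attached to module data. -/
lemma shortExact_of {f : A →ₗ[R] B} {g : B →ₗ[R] C} (hf : Function.Injective f)
    (hfg : Function.Exact f g) (hg : Function.Surjective g) :
    (ShortComplex.moduleCatMk f g (hfg.linearMap_comp_eq_zero)).ShortExact :=
  ModuleCat.shortComplex_shortExact _ hfg hf hg

lemma PDLT.mid {f : A →ₗ[R] B} {g : B →ₗ[R] C} (hf : Function.Injective f)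
    (hfg : Function.Exact f g) (hg : Function.Surjective g) {n : ℕ}
    (h1 : PDLT R A n) (h3 : PDLT R C n) : PDLT R B n :=
  (shortExact_of hf hfg hg).hasProjectiveDimensionLT_X₂ n h1 h3

lemma PDLT.right {f : A →ₗ[R] B} {g : B →ₗ[R] C} (hf : Function.Injective f)
    (hfg : Function.Exact f g) (hg : Function.Surjective g) {n : ℕ}
    (h1 : PDLT R A n) (h2 : PDLT R B (n + 1)) : PDLT R C (n + 1) :=
  (shortExact_of hf hfg hg).hasProjectiveDimensionLT_X₃ n h1 h2

lemma PDLT.left {f : A →ₗ[R] B} {g : B →ₗ[R] C} (hf : Function.Injective f)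
    (hfg : Function.Exact f g) (hg : Function.Surjective g) {n : ℕ}
    (h2 : PDLT R B n) (h3 : PDLT R C (n + 1)) : PDLT R A n :=
  (shortExact_of hf hfg hg).hasProjectiveDimensionLT_X₁ n h2 h3

/-- Dimension shifting for `0 → ker g → B → C → 0` with `B` projective. -/
lemma pdlt_ker_iff [Module.Projective R B] {g : B →ₗ[R] C} (hg : Function.Surjective g) {n : ℕ} :
    PDLT R C (n + 2) ↔ PDLT R (LinearMap.ker g) (n + 1) := by
  have hex : Function.Exact (LinearMap.ker g).subtype g := LinearMap.exact_subtype_ker_map g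
  have hinj : Function.Injective (LinearMap.ker g).subtype := Subtype.val_injective
  have hB : PDLT R B 1 := PDLT.of_projective
  exact ⟨fun h => PDLT.left hinj hex hg (hB.mono (by omega)) h,
    fun h => PDLT.right hinj hex hg h (hB.mono (by omega))⟩

lemma PDLT.of_equiv (e : A ≃ₗ[R] B) {n : ℕ} (h : PDLT R A n) : PDLT R B n := by
  have : HasProjectiveDimensionLT (ModuleCat.of R A) n := h
  exact hasProjectiveDimensionLT_of_iso e.toModuleIso n

lemma pdlt_congr (e : A ≃ₗ[R] B) {n : ℕ} : PDLT R A n ↔ PDLT R B n :=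
  ⟨fun h => h.of_equiv e, fun h => h.of_equiv e.symm⟩

/-- Dimension shifting: `B` projective, `A → B → C → 0` exact, `K = ker (B → C)`. -/
lemma pdlt_range_iff [Module.Projective R B] {f : A →ₗ[R] B} {g : B →ₗ[R] C}
    (hfg : Function.Exact f g) (hg : Function.Surjective g) {n : ℕ} :
    PDLT R C (n + 2) ↔ PDLT R (LinearMap.range f) (n + 1) := by
  rw [pdlt_ker_iff hg]
  have h : LinearMap.ker g = LinearMap.range f := LinearMap.exact_iff.1 hfg
  exact pdlt_congr (LinearEquiv.ofEq _ _ h)

/-- `0 → B' → Z → M → 0` where `B' = range f ≤ Z = ker g` and `M ≅ Z / B'`. -/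
lemma shortExact_homology {A B C : Type} [AddCommGroup A] [Module R A] [AddCommGroup B]
    [Module R B] [AddCommGroup C] [Module R C] {M : Type} [AddCommGroup M] [Module R M]
    {f : A →ₗ[R] B} {g : B →ₗ[R] C} (z : LinearMap.ker g →ₗ[R] M)
    (hz : ∀ x, z x = 0 ↔ (x : B) ∈ LinearMap.range f) (hfg : ∀ x, g (f x) = 0) :
    Function.Injective (Submodule.inclusion (show LinearMap.range f ≤ LinearMap.ker g by
        rintro _ ⟨x, rfl⟩; exact hfg x)) ∧
      Function.Exact (Submodule.inclusion (show LinearMap.range f ≤ LinearMap.ker g by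
        rintro _ ⟨x, rfl⟩; exact hfg x)) z := by
  refine ⟨Submodule.inclusion_injective _, fun x => ⟨fun h => ?_, ?_⟩⟩
  · exact ⟨⟨x, (hz x).1 h⟩, rfl⟩
  · rintro ⟨y, rfl⟩
    exact (hz _).2 y.2

end

section Step

variable {R : Type} [Ring R]
variable {Q0 Q1 Q2 Q3 Q4 : Type} [AddCommGroup Q0] [Module R Q0] [AddCommGroup Q1] [Module R Q1]
  [AddCommGroup Q2] [Module R Q2] [AddCommGroup Q3] [Module R Q3] [AddCommGroup Q4] [Module R Q4]
  [Module.Projective R Q0] [Module.Projective R Q1] [Module.Projective R Q2]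
  [Module.Projective R Q3] [Module.Projective R Q4]

omit [Module.Projective R Q0] [Module.Projective R Q1] in
/-- the image of `Q2 → Q1` has projective dimension at most `2`. -/
lemma pdlt_range_d2 {d2 : Q2 →ₗ[R] Q1} {d3 : Q3 →ₗ[R] Q2} {d4 : Q4 →ₗ[R] Q3}
    (h2 : Function.Exact d3 d2) (h3 : Function.Exact d4 d3) (h4 : Function.Injective d4) :
    PDLT R (LinearMap.range d2) 3 := by
  have e4 : PDLT R (LinearMap.range d4) 1 :=
    (PDLT.of_projective (R := R) (A := Q4)).of_equiv (LinearEquiv.ofInjective d4 h4)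
  have e3 : PDLT R (LinearMap.range d3) 2 := by
    have hex : Function.Exact d4 d3.rangeRestrict := by
      intro x
      rw [← h3 x]
      simp only [LinearMap.rangeRestrict, ← Subtype.coe_inj]
      simp
    exact (pdlt_range_iff (n := 0) hex d3.surjective_rangeRestrict).2 e4
  have hex : Function.Exact d3 d2.rangeRestrict := by
    intro x
    rw [← h2 x]
    simp only [LinearMap.rangeRestrict, ← Subtype.coe_inj]
    simp
  exact (pdlt_range_iff (n := 1) hex d2.surjective_rangeRestrict).2 e3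

/-- Exact computation of the projective dimension in the inductive step. -/
theorem pd_step {M' E M : Type} [AddCommGroup M'] [Module R M'] [AddCommGroup E] [Module R E]
    [AddCommGroup M] [Module R M]
    {d1 : Q1 →ₗ[R] Q0} {d2 : Q2 →ₗ[R] Q1} {d3 : Q3 →ₗ[R] Q2} {d4 : Q4 →ₗ[R] Q3}
    {ε : Q0 →ₗ[R] E} (hε : Function.Surjective ε) (h0 : Function.Exact d1 ε)
    (h12 : ∀ x, d1 (d2 x) = 0)
    (z : LinearMap.ker d1 →ₗ[R] M') (hz : Function.Surjective z)
    (hzk : ∀ x, z x = 0 ↔ (x : Q1) ∈ LinearMap.range d2)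
    (h2 : Function.Exact d3 d2) (h3 : Function.Exact d4 d3) (h4 : Function.Injective d4)
    {i : M' →ₗ[R] E} {p : E →ₗ[R] M} (hi : Function.Injective i) (hip : Function.Exact i p)
    (hp : Function.Surjective p) {e : ℕ} (he : 4 ≤ e)
    (hM : PDLT R M' (e + 1)) (hM' : ¬ PDLT R M' e) :
    PDLT R M (e + 3) ∧ ¬ PDLT R M (e + 2) := by
  have hB1 : PDLT R (LinearMap.range d2) 3 := pdlt_range_d2 h2 h3 h4
  obtain ⟨hinj, hex⟩ := shortExact_homology z hzk h12
  have hZ : PDLT R (LinearMap.ker d1) (e + 1) :=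
    PDLT.mid hinj hex hz (hB1.mono (by omega)) hM
  have hZ' : ¬ PDLT R (LinearMap.ker d1) e := by
    intro h
    obtain ⟨e', rfl⟩ : ∃ e', e = e' + 1 := ⟨e - 1, by omega⟩
    exact hM' (PDLT.right hinj hex hz (hB1.mono (by omega)) h)
  -- the image of `d1`
  have hB0 : ∀ n, PDLT R (LinearMap.range d1) (n + 2) ↔ PDLT R (LinearMap.ker d1) (n + 1) := by
    intro n
    rw [pdlt_ker_iff d1.surjective_rangeRestrict]
    exact pdlt_congr (LinearEquiv.ofEq _ _ (LinearMap.ker_rangeRestrict d1))
  have hE : ∀ n, PDLT R E (n + 2) ↔ PDLT R (LinearMap.range d1) (n + 1) := fun n =>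
    pdlt_range_iff h0 hε
  have hE3 : PDLT R E (e + 3) := (hE (e + 1)).2 ((hB0 e).2 hZ)
  have hE2 : ¬ PDLT R E (e + 2) := by
    intro h
    obtain ⟨e', rfl⟩ : ∃ e', e = e' + 1 := ⟨e - 1, by omega⟩
    exact hZ' ((hB0 e').1 ((hE (e' + 1)).1 h))
  refine ⟨PDLT.right hi hip hp (hM.mono (by omega)) hE3, fun h => hE2 ?_⟩
  exact PDLT.mid hi hip hp (hM.mono (by omega)) h

/-- The same with the homology given as an isomorphism
`ker d1 / range d2 ≃ M'`. -/
theorem pd_step' {M' E M : Type} [AddCommGroup M'] [Module R M'] [AddCommGroup E] [Module R E]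
    [AddCommGroup M] [Module R M]
    {d1 : Q1 →ₗ[R] Q0} {d2 : Q2 →ₗ[R] Q1} {d3 : Q3 →ₗ[R] Q2} {d4 : Q4 →ₗ[R] Q3}
    {ε : Q0 →ₗ[R] E} (hε : Function.Surjective ε) (h0 : Function.Exact d1 ε)
    (h12 : ∀ x, d1 (d2 x) = 0)
    (φ : (LinearMap.ker d1 ⧸ (LinearMap.range d2).comap (LinearMap.ker d1).subtype) ≃ₗ[R] M')
    (h2 : Function.Exact d3 d2) (h3 : Function.Exact d4 d3) (h4 : Function.Injective d4)
    {i : M' →ₗ[R] E} {p : E →ₗ[R] M} (hi : Function.Injective i) (hip : Function.Exact i p)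
    (hp : Function.Surjective p) {e : ℕ} (he : 4 ≤ e)
    (hM : PDLT R M' (e + 1)) (hM' : ¬ PDLT R M' e) :
    PDLT R M (e + 3) ∧ ¬ PDLT R M (e + 2) := by
  refine pd_step hε h0 h12 (φ.toLinearMap ∘ₗ Submodule.mkQ _) ?_ ?_ h2 h3 h4 hi hip hp he hM hM'
  · exact φ.surjective.comp (Submodule.mkQ_surjective _)
  · intro x
    simp

/-- The same with the homology given by a linear map `s : M' → Q1` of cycles which is an
isomorphism onto the homology (`s` only linear modulo boundaries is not needed here). -/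
theorem pd_step'' {M' E M : Type} [AddCommGroup M'] [Module R M'] [AddCommGroup E] [Module R E]
    [AddCommGroup M] [Module R M]
    {d1 : Q1 →ₗ[R] Q0} {d2 : Q2 →ₗ[R] Q1} {d3 : Q3 →ₗ[R] Q2} {d4 : Q4 →ₗ[R] Q3}
    {ε : Q0 →ₗ[R] E} (hε : Function.Surjective ε) (h0 : Function.Exact d1 ε)
    (h12 : ∀ x, d1 (d2 x) = 0)
    (s : M' → Q1) (hs1 : ∀ m, d1 (s m) = 0)
    (hadd : ∀ m m', s (m + m') - (s m + s m') ∈ LinearMap.range d2)
    (hsmul : ∀ (r : R) m, s (r • m) - r • s m ∈ LinearMap.range d2)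
    (hsinj : ∀ m, s m ∈ LinearMap.range d2 → m = 0)
    (hssurj : ∀ x, d1 x = 0 → ∃ m, x - s m ∈ LinearMap.range d2)
    (h2 : Function.Exact d3 d2) (h3 : Function.Exact d4 d3) (h4 : Function.Injective d4)
    {i : M' →ₗ[R] E} {p : E →ₗ[R] M} (hi : Function.Injective i) (hip : Function.Exact i p)
    (hp : Function.Surjective p) {e : ℕ} (he : 4 ≤ e)
    (hM : PDLT R M' (e + 1)) (hM' : ¬ PDLT R M' e) :
    PDLT R M (e + 3) ∧ ¬ PDLT R M (e + 2) := by
  let K := (LinearMap.range d2).comap (LinearMap.ker d1).subtype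
  let ψ : M' →ₗ[R] (LinearMap.ker d1 ⧸ K) :=
    { toFun := fun m => Submodule.Quotient.mk ⟨s m, hs1 m⟩
      map_add' := fun m m' => by
        rw [← Submodule.Quotient.mk_add, Submodule.Quotient.eq]
        exact hadd m m'
      map_smul' := fun r m => by
        rw [RingHom.id_apply, ← Submodule.Quotient.mk_smul, Submodule.Quotient.eq]
        exact hsmul r m }
  have hψ : Function.Bijective ψ := by
    constructor
    · rw [injective_iff_map_eq_zero]
      intro m hm
      have h5 : (⟨s m, hs1 m⟩ : LinearMap.ker d1) ∈ K := (Submodule.Quotient.mk_eq_zero K).1 hm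
      exact hsinj m h5
    · intro x
      obtain ⟨x, rfl⟩ := Submodule.Quotient.mk_surjective _ x
      obtain ⟨m, hm⟩ := hssurj x x.2
      refine ⟨m, ?_⟩
      symm
      exact (Submodule.Quotient.eq _).2 hm
  exact pd_step' hε h0 h12 (LinearEquiv.ofBijective ψ hψ).symm h2 h3 h4 hi hip hp he hM hM'

/-- A resolution of length `4` whose last map is not a split monomorphism. -/
theorem pd_base {M : Type} [AddCommGroup M] [Module R M]
    {d1 : Q1 →ₗ[R] Q0} {d2 : Q2 →ₗ[R] Q1} {d3 : Q3 →ₗ[R] Q2} {d4 : Q4 →ₗ[R] Q3}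
    {ε : Q0 →ₗ[R] M} (hε : Function.Surjective ε) (h0 : Function.Exact d1 ε)
    (h1 : Function.Exact d2 d1)
    (h2 : Function.Exact d3 d2) (h3 : Function.Exact d4 d3) (h4 : Function.Injective d4)
    (hns : ¬ ∃ r : Q3 →ₗ[R] Q4, ∀ x, r (d4 x) = x) :
    PDLT R M 5 ∧ ¬ PDLT R M 4 := by
  have hB : PDLT R (LinearMap.range d2) 3 := pdlt_range_d2 h2 h3 h4
  have hM : ∀ n, PDLT R M (n + 2) ↔ PDLT R (LinearMap.range d1) (n + 1) := fun n =>
    pdlt_range_iff h0 hε
  have hex1 : Function.Exact d2 d1.rangeRestrict := by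
    intro x
    rw [← h1 x]
    simp only [LinearMap.rangeRestrict, ← Subtype.coe_inj]
    simp
  have hB1 : ∀ n, PDLT R (LinearMap.range d1) (n + 2) ↔ PDLT R (LinearMap.range d2) (n + 1) :=
    fun n => pdlt_range_iff hex1 d1.surjective_rangeRestrict
  have hex2 : Function.Exact d3 d2.rangeRestrict := by
    intro x
    rw [← h2 x]
    simp only [LinearMap.rangeRestrict, ← Subtype.coe_inj]
    simp
  have hB2 : ∀ n, PDLT R (LinearMap.range d2) (n + 2) ↔ PDLT R (LinearMap.range d3) (n + 1) :=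
    fun n => pdlt_range_iff hex2 d2.surjective_rangeRestrict
  refine ⟨(hM 3).2 ((hB1 2).2 hB), fun h => hns ?_⟩
  have hproj : Module.Projective R (LinearMap.range d3) :=
    ((hB2 0).1 ((hB1 1).1 ((hM 2).1 h))).projective
  -- split `Q3 → range d3`
  obtain ⟨σ, hσ⟩ := Module.projective_lifting_property d3.rangeRestrict LinearMap.id
    d3.surjective_rangeRestrict
  -- `x - σ (d3 x)` lies in the range of `d4`
  have hmem : ∀ x, x - σ (d3.rangeRestrict x) ∈ LinearMap.range d4 := by
    intro x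
    have h5 : d3 (x - σ (d3.rangeRestrict x)) = 0 := by
      have h6 : d3.rangeRestrict (σ (d3.rangeRestrict x)) = d3.rangeRestrict x :=
        LinearMap.congr_fun hσ (d3.rangeRestrict x)
      have h7 : d3 (σ (d3.rangeRestrict x)) = d3 x := congrArg Subtype.val h6
      rw [map_sub, h7, sub_self]
    exact (h3 _).1 h5
  let q : Q3 →ₗ[R] LinearMap.range d4 :=
    (LinearMap.id - σ ∘ₗ d3.rangeRestrict).codRestrict _ hmem
  refine ⟨(LinearEquiv.ofInjective d4 h4).symm.toLinearMap ∘ₗ q, fun x => ?_⟩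
  have h8 : d3 (d4 x) = 0 := (h3 _).2 ⟨x, rfl⟩
  have h9 : d3.rangeRestrict (d4 x) = 0 := Subtype.ext h8
  have h10 : q (d4 x) = LinearEquiv.ofInjective d4 h4 x := by
    apply Subtype.ext
    simp [q, h9]
  simp [h10]

/-- Unbounded finite projective dimensions. -/
theorem pd_conclusion (M : ℕ → Type) [∀ n, AddCommGroup (M n)] [∀ n, Module R (M n)]
    [∀ n, Module.Finite R (M n)]
    (h0 : PDLT R (M 0) 5 ∧ ¬ PDLT R (M 0) 4)
    (hs : ∀ n e, 4 ≤ e → PDLT R (M n) (e + 1) → ¬ PDLT R (M n) e →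
      PDLT R (M (n + 1)) (e + 3) ∧ ¬ PDLT R (M (n + 1)) (e + 2)) (k : ℕ) :
    ∃ N : ModuleCat.{0} R, Module.Finite R N ∧
      ¬ CategoryTheory.HasProjectiveDimensionLT N k ∧
      ∃ n : ℕ, CategoryTheory.HasProjectiveDimensionLT N n := by
  have key : ∀ n, PDLT R (M n) (2 * n + 5) ∧ ¬ PDLT R (M n) (2 * n + 4) := by
    intro n
    induction n with
    | zero => exact h0
    | succ n ih =>
      have := hs n (2 * n + 4) (by omega) ih.1 ih.2
      exact ⟨this.1, this.2⟩
  refine ⟨ModuleCat.of R (M k), inferInstanceAs (Module.Finite R (M k)), fun h => ?_, 2 * k + 5,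
    (key k).1⟩
  exact (key k).2 (PDLT.mono (show PDLT R (M k) k from h) (by omega))

end Step

end Crest.Agent.R178
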