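import Crest.Agent.R178.Defs

/-!
Row 178 (S0268): the filtered Koszul lemma (T2).
-/

set_option autoImplicit false
set_option linter.unusedSimpArgs false

open Finset

namespace Crest.Agent.R178

section dd

variable {R W : Type} [Ring R] [AddCommGroup W] [Module R W]

theorem D1_apply (t : Fin 4 → W →ₗ[R] W) (y : Fin 4 → W) :
    D1 t y = t 0 (y 0) + t 1 (y 1) + t 2 (y 2) + t 3 (y 3) := rfl

theorem D2_apply (t : Fin 4 → W →ₗ[R] W) (y : Fin 6 → W) :
    D2 t y = ![- t 1 (y 0) - t 2 (y 1) - t 3 (y 2) - y 3,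
    t 0 (y 0) - y 0 - t 2 (y 3) - t 3 (y 4) - y 4,
    t 0 (y 1) + y 1 + t 1 (y 3) - t 3 (y 5) + y 5,
    t 0 (y 2) + y 3 + t 1 (y 4) + t 2 (y 5)] := rfl

theorem D3_apply (t : Fin 4 → W →ₗ[R] W) (y : Fin 4 → W) :
    D3 t y = ![t 2 (y 0) + t 3 (y 1) + y 1,
    - t 1 (y 0) + t 3 (y 2) - y 2,
    - y 0 - t 1 (y 1) - t 2 (y 2) - y 3,
    t 0 (y 0) + t 3 (y 3),
    t 0 (y 1) - y 1 - t 2 (y 3),
    t 0 (y 2) + y 2 + t 1 (y 3)] := rfl

theorem D4_apply (t : Fin 4 → W →ₗ[R] W) (w : W) :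
    D4 t w = ![- t 3 w, t 2 w, - t 1 w, t 0 w] := rfl

theorem D1_D2 {t : Fin 4 → W →ₗ[R] W} (h : AntiRep t) (y : Fin 6 → W) :
    D1 t (D2 t y) = 0 := by
  have h01 := h.h01 (y 0)
  have h02 := h.h02 (y 1)
  have h03 := h.h03 (y 2)
  have h12 := h.h12 (y 3)
  have h13 := h.h13 (y 4)
  have h23 := h.h23 (y 5)
  rw [sub_eq_iff_eq_add] at h01 h02 h03 h12 h13 h23
  rw [D1_apply, D2_apply]
  simp only [Matrix.cons_val_zero, Matrix.cons_val_one, Matrix.cons_val, map_add, map_sub, map_neg]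
  rw [h01, h02, h03, h12, h13, h23]
  abel

theorem D2_D3 {t : Fin 4 → W →ₗ[R] W} (h : AntiRep t) (y : Fin 4 → W) :
    D2 t (D3 t y) = 0 := by
  have h01 := fun w => sub_eq_iff_eq_add.1 (h.h01 w)
  have h02 := fun w => sub_eq_iff_eq_add.1 (h.h02 w)
  have h03 := fun w => sub_eq_iff_eq_add.1 (h.h03 w)
  have h12 := fun w => sub_eq_iff_eq_add.1 (h.h12 w)
  have h13 := fun w => sub_eq_iff_eq_add.1 (h.h13 w)
  have h23 := fun w => sub_eq_iff_eq_add.1 (h.h23 w)
  rw [D2_apply, D3_apply]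
  ext i
  fin_cases i <;>
  · simp only [Matrix.cons_val_zero, Matrix.cons_val_one, Matrix.cons_val, map_add, map_sub,
      map_neg, Fin.zero_eta, Fin.mk_one, Fin.reduceFinMk, Pi.zero_apply, h01, h02, h03, h12, h13,
      h23]
    abel

theorem D3_D4 {t : Fin 4 → W →ₗ[R] W} (h : AntiRep t) (w : W) :
    D3 t (D4 t w) = 0 := by
  have h01 := fun w => sub_eq_iff_eq_add.1 (h.h01 w)
  have h02 := fun w => sub_eq_iff_eq_add.1 (h.h02 w)
  have h03 := fun w => sub_eq_iff_eq_add.1 (h.h03 w)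
  have h12 := fun w => sub_eq_iff_eq_add.1 (h.h12 w)
  have h13 := fun w => sub_eq_iff_eq_add.1 (h.h13 w)
  have h23 := fun w => sub_eq_iff_eq_add.1 (h.h23 w)
  rw [D3_apply, D4_apply]
  ext i
  fin_cases i <;>
  · simp only [Matrix.cons_val_zero, Matrix.cons_val_one, Matrix.cons_val, map_add, map_sub,
      map_neg, Fin.zero_eta, Fin.mk_one, Fin.reduceFinMk, Pi.zero_apply, h01, h02, h03, h12, h13,
      h23]
    abel

end dd

namespace Koszul

variable {W : Type} [AddCommGroup W] [Module ℂ W]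

/-- Koszul homotopies -/
def h0 (der : Fin 4 → W →ₗ[ℂ] W) (w : W) : Fin 4 → W := fun a => der a w

def h1 (der : Fin 4 → W →ₗ[ℂ] W) (y : Fin 4 → W) : Fin 6 → W :=
  ![der 0 (y 1) - der 1 (y 0), der 0 (y 2) - der 2 (y 0), der 0 (y 3) - der 3 (y 0),
    der 1 (y 2) - der 2 (y 1), der 1 (y 3) - der 3 (y 1), der 2 (y 3) - der 3 (y 2)]

def h2 (der : Fin 4 → W →ₗ[ℂ] W) (y : Fin 6 → W) : Fin 4 → W :=
  ![der 0 (y 3) - der 1 (y 1) + der 2 (y 0), der 0 (y 4) - der 1 (y 2) + der 3 (y 0),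
    der 0 (y 5) - der 2 (y 2) + der 3 (y 1), der 1 (y 5) - der 2 (y 4) + der 3 (y 3)]

def h3 (der : Fin 4 → W →ₗ[ℂ] W) (y : Fin 4 → W) : W :=
  der 0 (y 3) - der 1 (y 2) + der 2 (y 1) - der 3 (y 0)

/-- Koszul differentials -/
def K1 (m : Fin 4 → W →ₗ[ℂ] W) (y : Fin 4 → W) : W :=
  m 0 (y 0) + m 1 (y 1) + m 2 (y 2) + m 3 (y 3)

def K2 (m : Fin 4 → W →ₗ[ℂ] W) (y : Fin 6 → W) : Fin 4 → W :=
  ![- m 1 (y 0) - m 2 (y 1) - m 3 (y 2), m 0 (y 0) - m 2 (y 3) - m 3 (y 4),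
    m 0 (y 1) + m 1 (y 3) - m 3 (y 5), m 0 (y 2) + m 1 (y 4) + m 2 (y 5)]

def K3 (m : Fin 4 → W →ₗ[ℂ] W) (y : Fin 4 → W) : Fin 6 → W :=
  ![m 2 (y 0) + m 3 (y 1), - m 1 (y 0) + m 3 (y 2), - m 1 (y 1) - m 2 (y 2),
    m 0 (y 0) + m 3 (y 3), m 0 (y 1) - m 2 (y 3), m 0 (y 2) + m 1 (y 3)]

def K4 (m : Fin 4 → W →ₗ[ℂ] W) (w : W) : Fin 4 → W :=
  ![- m 3 w, m 2 w, - m 1 w, m 0 w]

/-- Euler operator -/
def E (m der : Fin 4 → W →ₗ[ℂ] W) (w : W) : W := ∑ a, m a (der a w)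

theorem E_apply (m der : Fin 4 → W →ₗ[ℂ] W) (w : W) :
    E m der w = m 0 (der 0 w) + m 1 (der 1 w) + m 2 (der 2 w) + m 3 (der 3 w) := by
  simp [E, Fin.sum_univ_four]

section homotopy

variable {m der : Fin 4 → W →ₗ[ℂ] W}
  (hc : ∀ a b u, der a (m b u) = m b (der a u) + if a = b then u else 0)

include hc

theorem K2h1 (y : Fin 4 → W) (a : Fin 4) :
    K2 m (h1 der y) a = E m der (y a) + y a - h0 der (K1 m y) a := by
  rw [E_apply]
  unfold K2 h1 h0 K1
  fin_cases a <;>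
  · simp [hc]
    abel

theorem K3h2 (y : Fin 6 → W) (a : Fin 6) :
    K3 m (h2 der y) a = E m der (y a) + (2 : ℂ) • y a - h1 der (K2 m y) a := by
  rw [E_apply]
  unfold K3 h2 h1 K2
  fin_cases a <;>
  · simp [hc, two_smul]
    abel

theorem K4h3 (y : Fin 4 → W) (a : Fin 4) :
    K4 m (h3 der y) a = E m der (y a) + (3 : ℂ) • y a - h2 der (K3 m y) a := by
  have h3e : (3 : ℂ) • y a = y a + y a + y a := by module
  rw [E_apply, h3e]
  unfold K4 h3 h2 K3
  fin_cases a <;>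
  · simp [hc]
    abel

theorem h3K4 (w : W) :
    h3 der (K4 m w) = E m der w + (4 : ℂ) • w := by
  have h4e : (4 : ℂ) • w = w + w + w + w := by module
  rw [E_apply, h4e]
  unfold K4 h3
  simp [hc]
  abel

end homotopy

section filt

variable {G : ℤ → Submodule ℂ W} {t mul der : Fin 4 → W →ₗ[ℂ] W}

theorem mem_of_fin4 {j : ℤ} {z : Fin 4 → W} (h0 : z 0 ∈ G j) (h1 : z 1 ∈ G j) (h2 : z 2 ∈ G j)
    (h3 : z 3 ∈ G j) : ∀ a, z a ∈ G j := by
  intro a; fin_cases a <;> assumption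

variable (H : FilKos G t mul der)

include H

theorem e_mem {j : ℤ} {u : W} (hu : u ∈ G j) (a : Fin 4) : t a u - mul a u ∈ G j := H.top a j u hu

theorem E_mem {j : ℤ} {u : W} (hu : u ∈ G j) : E mul der u - (j : ℂ) • u ∈ G (j - 1) :=
  H.euler j u hu

theorem h0_mem {j : ℤ} {y : W} (hy : y ∈ G j) (a : Fin 4) : h0 der y a ∈ G (j - 1) :=
  H.der_mem a j y hy

theorem h1_mem {j : ℤ} {y : Fin 4 → W} (hy : ∀ a, y a ∈ G j) (a : Fin 6) :
    h1 der y a ∈ G (j - 1) := by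
  have := fun a b => H.der_mem a j (y b) (hy b)
  unfold h1
  fin_cases a <;> exact Submodule.sub_mem _ (this _ _) (this _ _)

theorem h2_mem {j : ℤ} {y : Fin 6 → W} (hy : ∀ a, y a ∈ G j) (a : Fin 4) :
    h2 der y a ∈ G (j - 1) := by
  have := fun a b => H.der_mem a j (y b) (hy b)
  unfold h2
  fin_cases a <;>
    exact Submodule.add_mem _ (Submodule.sub_mem _ (this _ _) (this _ _)) (this _ _)

theorem h3_mem {j : ℤ} {y : Fin 4 → W} (hy : ∀ a, y a ∈ G j) : h3 der y ∈ G (j - 1) := by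
  have := fun a b => H.der_mem a j (y b) (hy b)
  unfold h3
  exact Submodule.sub_mem _ (Submodule.add_mem _ (Submodule.sub_mem _ (this _ _) (this _ _))
    (this _ _)) (this _ _)

theorem D1K1 {j : ℤ} {y : Fin 4 → W} (hy : ∀ a, y a ∈ G j) :
    D1 t y - K1 mul y ∈ G j := by
  have h := fun a b => e_mem H (hy b) a
  have : D1 t y - K1 mul y = (t 0 (y 0) - mul 0 (y 0)) + (t 1 (y 1) - mul 1 (y 1)) +
      (t 2 (y 2) - mul 2 (y 2)) + (t 3 (y 3) - mul 3 (y 3)) := by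
    rw [D1_apply]; unfold K1; abel
  rw [this]
  exact Submodule.add_mem _ (Submodule.add_mem _ (Submodule.add_mem _ (h _ _) (h _ _)) (h _ _))
    (h _ _)

theorem D2K2 {j : ℤ} {y : Fin 6 → W} (hy : ∀ a, y a ∈ G j) (a : Fin 4) :
    D2 t y a - K2 mul y a ∈ G j := by
  have h := fun a b => e_mem H (hy b) a
  have hadd := fun u v => Submodule.add_mem (G j) (x := u) (y := v)
  have hsub := fun u v => Submodule.sub_mem (G j) (x := u) (y := v)
  have hneg := fun u => (Submodule.neg_mem_iff (G j) (x := u)).2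
  rw [D2_apply]; unfold K2
  fin_cases a
  · have : - t 1 (y 0) - t 2 (y 1) - t 3 (y 2) - y 3 - (- mul 1 (y 0) - mul 2 (y 1) - mul 3 (y 2))
        = - (t 1 (y 0) - mul 1 (y 0)) - (t 2 (y 1) - mul 2 (y 1)) - (t 3 (y 2) - mul 3 (y 2))
          - y 3 := by abel
    simp only [Matrix.cons_val_zero, Matrix.cons_val_one, Matrix.cons_val, Fin.zero_eta,
      Fin.mk_one, Fin.reduceFinMk]
    rw [this]
    exact hsub _ _ (hsub _ _ (hsub _ _ (hneg _ (h _ _)) (h _ _)) (h _ _)) (hy _)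
  · have : t 0 (y 0) - y 0 - t 2 (y 3) - t 3 (y 4) - y 4 - (mul 0 (y 0) - mul 2 (y 3) - mul 3 (y 4))
        = (t 0 (y 0) - mul 0 (y 0)) - y 0 - (t 2 (y 3) - mul 2 (y 3)) - (t 3 (y 4) - mul 3 (y 4))
          - y 4 := by abel
    simp only [Matrix.cons_val_zero, Matrix.cons_val_one, Matrix.cons_val, Fin.zero_eta,
      Fin.mk_one, Fin.reduceFinMk]
    rw [this]
    exact hsub _ _ (hsub _ _ (hsub _ _ (hsub _ _ (h _ _) (hy _)) (h _ _)) (h _ _)) (hy _)
  · have : t 0 (y 1) + y 1 + t 1 (y 3) - t 3 (y 5) + y 5 - (mul 0 (y 1) + mul 1 (y 3) - mul 3 (y 5))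
        = (t 0 (y 1) - mul 0 (y 1)) + y 1 + (t 1 (y 3) - mul 1 (y 3)) - (t 3 (y 5) - mul 3 (y 5))
          + y 5 := by abel
    simp only [Matrix.cons_val_zero, Matrix.cons_val_one, Matrix.cons_val, Fin.zero_eta,
      Fin.mk_one, Fin.reduceFinMk]
    rw [this]
    exact hadd _ _ (hsub _ _ (hadd _ _ (hadd _ _ (h _ _) (hy _)) (h _ _)) (h _ _)) (hy _)
  · have : t 0 (y 2) + y 3 + t 1 (y 4) + t 2 (y 5) - (mul 0 (y 2) + mul 1 (y 4) + mul 2 (y 5))
        = (t 0 (y 2) - mul 0 (y 2)) + y 3 + (t 1 (y 4) - mul 1 (y 4)) + (t 2 (y 5) - mul 2 (y 5)) :=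
          by abel
    simp only [Matrix.cons_val_zero, Matrix.cons_val_one, Matrix.cons_val, Fin.zero_eta,
      Fin.mk_one, Fin.reduceFinMk]
    rw [this]
    exact hadd _ _ (hadd _ _ (hadd _ _ (h _ _) (hy _)) (h _ _)) (h _ _)

theorem D3K3 {j : ℤ} {y : Fin 4 → W} (hy : ∀ a, y a ∈ G j) (a : Fin 6) :
    D3 t y a - K3 mul y a ∈ G j := by
  have h := fun a b => e_mem H (hy b) a
  have hadd := fun u v => Submodule.add_mem (G j) (x := u) (y := v)
  have hsub := fun u v => Submodule.sub_mem (G j) (x := u) (y := v)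
  have hneg := fun u => (Submodule.neg_mem_iff (G j) (x := u)).2
  rw [D3_apply]; unfold K3
  fin_cases a
  · have : t 2 (y 0) + t 3 (y 1) + y 1 - (mul 2 (y 0) + mul 3 (y 1))
        = (t 2 (y 0) - mul 2 (y 0)) + (t 3 (y 1) - mul 3 (y 1)) + y 1 := by abel
    simp only [Matrix.cons_val_zero, Matrix.cons_val_one, Matrix.cons_val, Fin.zero_eta,
      Fin.mk_one, Fin.reduceFinMk]
    rw [this]
    exact hadd _ _ (hadd _ _ (h _ _) (h _ _)) (hy _)
  · have : - t 1 (y 0) + t 3 (y 2) - y 2 - (- mul 1 (y 0) + mul 3 (y 2))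
        = - (t 1 (y 0) - mul 1 (y 0)) + (t 3 (y 2) - mul 3 (y 2)) - y 2 := by abel
    simp only [Matrix.cons_val_zero, Matrix.cons_val_one, Matrix.cons_val, Fin.zero_eta,
      Fin.mk_one, Fin.reduceFinMk]
    rw [this]
    exact hsub _ _ (hadd _ _ (hneg _ (h _ _)) (h _ _)) (hy _)
  · have : - y 0 - t 1 (y 1) - t 2 (y 2) - y 3 - (- mul 1 (y 1) - mul 2 (y 2))
        = - (t 1 (y 1) - mul 1 (y 1)) - (t 2 (y 2) - mul 2 (y 2)) - y 0 - y 3 := by abel
    simp only [Matrix.cons_val_zero, Matrix.cons_val_one, Matrix.cons_val, Fin.zero_eta,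
      Fin.mk_one, Fin.reduceFinMk]
    rw [this]
    exact hsub _ _ (hsub _ _ (hsub _ _ (hneg _ (h _ _)) (h _ _)) (hy _)) (hy _)
  · have : t 0 (y 0) + t 3 (y 3) - (mul 0 (y 0) + mul 3 (y 3))
        = (t 0 (y 0) - mul 0 (y 0)) + (t 3 (y 3) - mul 3 (y 3)) := by abel
    simp only [Matrix.cons_val_zero, Matrix.cons_val_one, Matrix.cons_val, Fin.zero_eta,
      Fin.mk_one, Fin.reduceFinMk]
    rw [this]
    exact hadd _ _ (h _ _) (h _ _)
  · have : t 0 (y 1) - y 1 - t 2 (y 3) - (mul 0 (y 1) - mul 2 (y 3))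
        = (t 0 (y 1) - mul 0 (y 1)) - (t 2 (y 3) - mul 2 (y 3)) - y 1 := by abel
    simp only [Matrix.cons_val_zero, Matrix.cons_val_one, Matrix.cons_val, Fin.zero_eta,
      Fin.mk_one, Fin.reduceFinMk]
    rw [this]
    exact hsub _ _ (hsub _ _ (h _ _) (h _ _)) (hy _)
  · have : t 0 (y 2) + y 2 + t 1 (y 3) - (mul 0 (y 2) + mul 1 (y 3))
        = (t 0 (y 2) - mul 0 (y 2)) + (t 1 (y 3) - mul 1 (y 3)) + y 2 := by abel
    simp only [Matrix.cons_val_zero, Matrix.cons_val_one, Matrix.cons_val, Fin.zero_eta,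
      Fin.mk_one, Fin.reduceFinMk]
    rw [this]
    exact hadd _ _ (hadd _ _ (h _ _) (h _ _)) (hy _)

theorem D4K4 {j : ℤ} {y : W} (hy : y ∈ G j) (a : Fin 4) :
    D4 t y a - K4 mul y a ∈ G j := by
  have h := fun a => e_mem H hy a
  have hneg := fun u => (Submodule.neg_mem_iff (G j) (x := u)).2
  rw [D4_apply]; unfold K4
  fin_cases a
  · have : - t 3 y - (- mul 3 y) = - (t 3 y - mul 3 y) := by abel
    simp only [Matrix.cons_val_zero, Matrix.cons_val_one, Matrix.cons_val, Fin.zero_eta,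
      Fin.mk_one, Fin.reduceFinMk]
    rw [this]
    exact hneg _ (h _)
  · exact h 2
  · have : - t 1 y - (- mul 1 y) = - (t 1 y - mul 1 y) := by abel
    simp only [Matrix.cons_val_zero, Matrix.cons_val_one, Matrix.cons_val, Fin.zero_eta,
      Fin.mk_one, Fin.reduceFinMk]
    rw [this]
    exact hneg _ (h _)
  · exact h 0

theorem step0 {j : ℤ} {y : W} (hy : y ∈ G j) :
    (j : ℂ) • y - D1 t (h0 der y) ∈ G (j - 1) := by
  have h1 := D1K1 H (h0_mem H hy)
  have h2 := E_mem H hy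
  have h3 : K1 mul (h0 der y) = E mul der y := by rw [E_apply]; rfl
  have : (j : ℂ) • y - D1 t (h0 der y) = - (E mul der y - (j : ℂ) • y) -
      (D1 t (h0 der y) - K1 mul (h0 der y)) := by rw [h3]; abel
  rw [this]
  exact Submodule.sub_mem _ (Submodule.neg_mem _ h2) h1

theorem step1 {j : ℤ} {y : Fin 4 → W} (hy : ∀ a, y a ∈ G j) (h : D1 t y = 0) (a : Fin 4) :
    ((j : ℂ) + 1) • y a - D2 t (h1 der y) a ∈ G (j - 1) := by
  have e1 := D2K2 H (h1_mem H hy) a
  have e2 := E_mem H (hy a)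
  have e3 := K2h1 H.der_mul y a
  have e4 := h0_mem H (D1K1 H hy) a
  have e5 : h0 der (D1 t y - K1 mul y) a = - h0 der (K1 mul y) a := by
    rw [h]; simp [h0]
  have : ((j : ℂ) + 1) • y a - D2 t (h1 der y) a = - (E mul der (y a) - (j : ℂ) • y a)
      - (D2 t (h1 der y) a - K2 mul (h1 der y) a) - h0 der (D1 t y - K1 mul y) a := by
    rw [e5, e3]; module
  rw [this]
  exact Submodule.sub_mem _ (Submodule.sub_mem _ (Submodule.neg_mem _ e2) e1) e4

theorem step2 {j : ℤ} {y : Fin 6 → W} (hy : ∀ a, y a ∈ G j) (h : D2 t y = 0) (a : Fin 6) :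
    ((j : ℂ) + 2) • y a - D3 t (h2 der y) a ∈ G (j - 1) := by
  have e1 := D3K3 H (h2_mem H hy) a
  have e2 := E_mem H (hy a)
  have e3 := K3h2 H.der_mul y a
  have e4 := h1_mem H (fun b => D2K2 H hy b) a
  have e5 : h1 der (fun b => D2 t y b - K2 mul y b) a = - h1 der (K2 mul y) a := by
    rw [h]; unfold h1
    fin_cases a <;> simp <;> abel
  have : ((j : ℂ) + 2) • y a - D3 t (h2 der y) a = - (E mul der (y a) - (j : ℂ) • y a)
      - (D3 t (h2 der y) a - K3 mul (h2 der y) a)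
      - h1 der (fun b => D2 t y b - K2 mul y b) a := by
    rw [e5, e3]; module
  rw [this]
  exact Submodule.sub_mem _ (Submodule.sub_mem _ (Submodule.neg_mem _ e2) e1) e4

theorem step3 {j : ℤ} {y : Fin 4 → W} (hy : ∀ a, y a ∈ G j) (h : D3 t y = 0) (a : Fin 4) :
    ((j : ℂ) + 3) • y a - D4 t (h3 der y) a ∈ G (j - 1) := by
  have e1 := D4K4 H (h3_mem H hy) a
  have e2 := E_mem H (hy a)
  have e3 := K4h3 H.der_mul y a
  have e4 := h2_mem H (fun b => D3K3 H hy b) a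
  have e5 : h2 der (fun b => D3 t y b - K3 mul y b) a = - h2 der (K3 mul y) a := by
    rw [h]; unfold h2
    fin_cases a <;> simp <;> abel
  have : ((j : ℂ) + 3) • y a - D4 t (h3 der y) a = - (E mul der (y a) - (j : ℂ) • y a)
      - (D4 t (h3 der y) a - K4 mul (h3 der y) a)
      - h2 der (fun b => D3 t y b - K3 mul y b) a := by
    rw [e5, e3]; module
  rw [this]
  exact Submodule.sub_mem _ (Submodule.sub_mem _ (Submodule.neg_mem _ e2) e1) e4

theorem step4 {j : ℤ} {y : W} (hy : y ∈ G j) (h : D4 t y = 0) :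
    ((j : ℂ) + 4) • y ∈ G (j - 1) := by
  have e2 := E_mem H hy
  have e3 := h3K4 H.der_mul y
  have e4 := h3_mem H (fun b => D4K4 H hy b)
  have e5 : h3 der (fun b => D4 t y b - K4 mul y b) = - h3 der (K4 mul y) := by
    rw [h]; unfold h3
    simp; abel
  have : ((j : ℂ) + 4) • y = - (E mul der y - (j : ℂ) • y)
      - h3 der (fun b => D4 t y b - K4 mul y b) := by
    rw [e5, e3]; module
  rw [this]
  exact Submodule.sub_mem _ (Submodule.neg_mem _ e2) e4

end filt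

section ind

variable {G : ℤ → Submodule ℂ W} (hneg : ∀ m : ℤ, m < 0 → G m = ⊥)
  (hmono : ∀ m n : ℤ, m ≤ n → G m ≤ G n)

include hneg hmono in
/-- abstract induction: `ι → W` cycles, correction `hh`, differentials `D : (κ → W) → (ι → W)`. -/
theorem ind_exact {ι κ : Type} (D : (κ → W) →ₗ[ℂ] (ι → W)) (P : (ι → W) →  Prop)
    (i : ℕ) (hi : 1 ≤ i)
    (hP : ∀ y (c : ℂ) x, P y → P (y - c • D x))
    (step : ∀ (j : ℤ) (y : ι → W), (∀ a, y a ∈ G j) → P y → ∃ x : κ → W,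
      (∀ a, x a ∈ G (j - 1)) ∧ ∀ a, ((j : ℂ) + (i : ℂ)) • y a - D x a ∈ G (j - 1))
    (j : ℤ) (y : ι → W) (hy : ∀ a, y a ∈ G j) (hPy : P y) :
    ∃ x : κ → W, (∀ a, x a ∈ G (j - 1)) ∧ D x = y := by
  have key : ∀ n : ℕ, ∀ y : ι → W, (∀ a, y a ∈ G ((n : ℤ) - 1)) → P y →
      ∃ x : κ → W, (∀ a, x a ∈ G ((n : ℤ) - 1 - 1)) ∧ D x = y := by
    intro n
    induction n with
    | zero =>
      intro y hy _
      refine ⟨0, fun a => by simp, ?_⟩
      rw [map_zero]
      ext a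
      have := hy a
      rw [hneg _ (by simp)] at this
      simpa using this.symm
    | succ n ih =>
      intro y hy hPy
      obtain ⟨x, hx, hx'⟩ := step _ y hy hPy
      have hc : (((((n + 1 : ℕ) : ℤ) - 1 : ℤ) : ℂ) + (i : ℂ)) = ((n + i : ℕ) : ℂ) := by
        push_cast; ring
      have hc0 : ((n + i : ℕ) : ℂ) ≠ 0 := by
        exact_mod_cast (by omega : n + i ≠ 0)
      rw [hc] at hx'
      set c : ℂ := ((n + i : ℕ) : ℂ) with hcdef
      have hidx : (((n + 1 : ℕ) : ℤ) - 1 - 1) = (n : ℤ) - 1 := by push_cast; ring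
      obtain ⟨x2, hx2, hx2'⟩ := ih (y - c⁻¹ • D x) (fun a => by
        have := Submodule.smul_mem _ c⁻¹ (hx' a)
        rw [smul_sub, smul_smul, inv_mul_cancel₀ hc0, one_smul, hidx] at this
        exact this) (hP y c⁻¹ x hPy)
      refine ⟨x2 + c⁻¹ • x, fun a => ?_, ?_⟩
      · exact Submodule.add_mem _ (hmono _ _ (by push_cast; linarith) (hx2 a))
          (Submodule.smul_mem _ _ (hx a))
      · rw [map_add, hx2', map_smul]; abel
  rcases lt_or_ge j 0 with hj | hj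
  · refine ⟨0, fun a => by simp, ?_⟩
    rw [map_zero]
    ext a
    have := hy a
    rw [hneg _ hj] at this
    simpa using this.symm
  · obtain ⟨n, rfl⟩ : ∃ n : ℕ, j = (n : ℤ) - 1 := ⟨(j + 1).toNat, by omega⟩
    exact key n y hy hPy

end ind

end Koszul

open Koszul in
theorem filKos : FilKosStmt := by
  intro W _ _ G t mul der H
  refine ⟨?_, ?_, ?_, ?_, ?_⟩
  · -- k0
    have key : ∀ n : ℕ, ∀ y : W, y ∈ G (n : ℤ) →
        ∃ x : Fin 4 → W, (∀ a, x a ∈ G ((n : ℤ) - 1)) ∧ y - D1 t x ∈ G 0 := by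
      intro n
      induction n with
      | zero =>
        intro y hy
        exact ⟨0, fun a => by simp, by simpa using hy⟩
      | succ n ih =>
        intro y hy
        have h1 := step0 H hy
        have hc0 : ((((n + 1 : ℕ) : ℤ)) : ℂ) ≠ 0 := by
          exact_mod_cast (by omega : n + 1 ≠ 0)
        set c : ℂ := ((((n + 1 : ℕ) : ℤ)) : ℂ) with hcdef
        have hidx : (((n + 1 : ℕ) : ℤ) - 1) = (n : ℤ) := by push_cast; ring
        have h2 := Submodule.smul_mem _ c⁻¹ h1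
        rw [smul_sub, smul_smul, inv_mul_cancel₀ hc0, one_smul, hidx, ← map_smul] at h2
        obtain ⟨x, hx, hx'⟩ := ih _ h2
        refine ⟨x + c⁻¹ • h0 der y, fun a => ?_, ?_⟩
        · exact Submodule.add_mem _ (H.mono _ _ (by push_cast; linarith) (hx a))
            (Submodule.smul_mem _ _ (h0_mem H hy a))
        · rw [map_add]
          convert hx' using 1
          abel
    intro j y hy
    rcases lt_or_ge j 0 with hj | hj
    · exact ⟨0, fun a => by simp, by simpa using H.mono _ _ hj.le hy⟩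
    · obtain ⟨n, rfl⟩ : ∃ n : ℕ, j = (n : ℤ) := ⟨j.toNat, by omega⟩
      exact key n y hy
  · -- k1
    intro j y hy h
    refine ind_exact H.neg H.mono (D2 t) (fun y => D1 t y = 0) 1 le_rfl ?_ ?_ j y hy h
    · intro y c x hy
      rw [map_sub, map_smul, D1_D2 H.anti, hy]; simp
    · intro j y hy h
      refine ⟨h1 der y, h1_mem H hy, fun a => ?_⟩
      have := step1 H hy h a
      simpa using this
  · -- k2
    intro j y hy h
    refine ind_exact H.neg H.mono (D3 t) (fun y => D2 t y = 0) 2 (by norm_num) ?_ ?_ j y hy h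
    · intro y c x hy
      rw [map_sub, map_smul, D2_D3 H.anti, hy]; simp
    · intro j y hy h
      refine ⟨h2 der y, h2_mem H hy, fun a => ?_⟩
      have := step2 H hy h a
      simpa using this
  · -- k3
    intro j y hy h
    obtain ⟨x, hx, hx'⟩ := ind_exact H.neg H.mono
      ((D4 t).comp (LinearMap.proj (R := ℂ) (φ := fun _ : Unit => W) ())) (fun y => D3 t y = 0) 3
      (by norm_num) (fun y c x hy => by
        show D3 t (y - c • D4 t (x ())) = 0
        rw [map_sub, map_smul, D3_D4 H.anti, hy]; simp) (fun j y hy h => by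
        refine ⟨fun _ => h3 der y, fun _ => h3_mem H hy, fun a => ?_⟩
        have := step3 H hy h a
        simpa using this) j y hy h
    exact ⟨x (), hx (), hx'⟩
  · -- k4
    have key : ∀ n : ℕ, ∀ y : W, y ∈ G ((n : ℤ) - 1) → D4 t y = 0 → y = 0 := by
      intro n
      induction n with
      | zero =>
        intro y hy _
        rw [H.neg _ (by simp)] at hy
        simpa using hy
      | succ n ih =>
        intro y hy h
        have h1 := step4 H hy h
        have hc : (((((n + 1 : ℕ) : ℤ) - 1 : ℤ) : ℂ) + 4) = ((n + 4 : ℕ) : ℂ) := by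
          push_cast; ring
        have hc0 : ((n + 4 : ℕ) : ℂ) ≠ 0 := by
          exact_mod_cast (by omega : n + 4 ≠ 0)
        rw [hc] at h1
        have hidx : (((n + 1 : ℕ) : ℤ) - 1 - 1) = (n : ℤ) - 1 := by push_cast; ring
        have h2 := Submodule.smul_mem _ (((n + 4 : ℕ) : ℂ))⁻¹ h1
        rw [smul_smul, inv_mul_cancel₀ hc0, one_smul, hidx] at h2
        exact ih y h2 h
    intro j y hy h
    rcases lt_or_ge j 0 with hj | hj
    · rw [H.neg _ hj] at hy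
      simpa using hy
    · obtain ⟨n, rfl⟩ : ∃ n : ℕ, j = (n : ℤ) - 1 := ⟨(j + 1).toNat, by omega⟩
      exact key n y hy h

end Crest.Agent.R178
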