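import Crest.Agent.R178.PBWa

/-! Row 178, T1: PBW for `gl_2` in the form needed, part 2 (helper507). -/

set_option autoImplicit false

open MvPolynomial

namespace Crest.Agent.R178

attribute [local instance 100] LieRing.ofAssociativeRing

namespace PBW

/-- ordered monomials -/
noncomputable def sg : S →ₗ[ℂ] U := (basisMonomials (Fin 4) ℂ).constr ℂ fun d => wd (sw d)

theorem sg_monomial (d : Fin 4 →₀ ℕ) : sg (monomial d 1) = wd (sw d) := by
  have := (basisMonomials (Fin 4) ℂ).constr_basis ℂ (fun d => wd (sw d)) d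
  rwa [coe_basisMonomials] at this

theorem sw_zero : sw 0 = [] := rfl

theorem Wk_le (k : ℕ) : Wk k ≤ (PS k).map sg := by
  induction k with
  | zero =>
    rw [Wk, Submodule.span_le]
    rintro _ ⟨w, hw, rfl⟩
    have : w = [] := List.length_eq_zero_iff.1 (by omega)
    subst this
    refine ⟨monomial 0 1, monomial_mem_PS _ _ (by simp), ?_⟩
    rw [sg_monomial, sw_zero]
  | succ k ih =>
    rw [Wk, Submodule.span_le]
    rintro _ ⟨w, hw, rfl⟩
    have mono : (PS (k : ℤ)).map sg ≤ (PS ((k + 1 : ℕ) : ℤ)).map sg :=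
      Submodule.map_mono (PS_mono (by push_cast; omega))
    rcases Nat.lt_or_ge w.length (k + 1) with h | h
    · exact mono (ih (Submodule.subset_span ⟨w, by omega, rfl⟩))
    · have hk : w.length = k + 1 := by omega
      have h1 : wd w = (wd w - wd (sw (cnt w))) + wd (sw (cnt w)) := by abel
      rw [h1]
      refine Submodule.add_mem _ (mono (ih (pow_le_Wk k (perm_mem (sw_cnt_perm w) k hk)))) ?_
      refine ⟨monomial (cnt w) 1, monomial_mem_PS _ _ ?_, sg_monomial _⟩
      rw [← sw_length, ← (sw_cnt_perm w).length_eq, hk]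

theorem cnt_cons (a : Fin 4) (w : List (Fin 4)) : cnt (a :: w) = Finsupp.single a 1 + cnt w := by
  ext b
  simp only [cnt, Finsupp.equivFunOnFinite_symm_apply_apply, Finsupp.add_apply, List.count_cons,
    Finsupp.single_apply]
  by_cases h : a = b
  · subst h; simp [add_comm]
  · simp [h]

theorem ev_wd_mem (w : List (Fin 4)) : ev (wd w) ∈ PS w.length := by
  induction w with
  | nil =>
    rw [wd_nil, ev_one]
    exact monomial_mem_PS 0 1 (by simp)
  | cons a w ih =>
    rw [wd_cons, ev_e_mul, List.length_cons]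
    push_cast
    exact Submodule.add_mem _ (X_mul_mem a ih) (PS_mono (by omega) (Ld_mem _ ih))

theorem ev_wd_lead (w : List (Fin 4)) :
    ev (wd w) - monomial (cnt w) 1 ∈ PS ((w.length : ℤ) - 1) := by
  induction w with
  | nil =>
    rw [wd_nil, ev_one]
    have : cnt [] = 0 := by ext; simp [cnt]
    rw [this, ← C_apply, C_1, sub_self]
    exact Submodule.zero_mem _
  | cons a w ih =>
    have h1 : ev (wd (a :: w)) - monomial (cnt (a :: w)) 1 =
        X a * (ev (wd w) - monomial (cnt w) 1) + Ld (eg a) (ev (wd w)) := by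
      rw [wd_cons, ev_e_mul, cnt_cons, mul_sub, X, monomial_mul, one_mul]
      ring
    rw [h1, List.length_cons]
    push_cast
    refine Submodule.add_mem _ (PS_mono (by omega) (X_mul_mem a ih)) ?_
    exact PS_mono (by omega) (Ld_mem _ (ev_wd_mem w))

theorem cnt_sw (d : Fin 4 →₀ ℕ) : cnt (sw d) = d := by
  ext a
  fin_cases a <;> simp [sw, cnt, List.count_append, List.count_replicate]

theorem ev_sg (m : ℤ) : ∀ p ∈ PS m, ev (sg p) - p ∈ PS (m - 1) := by
  have : PS m ≤ (PS (m - 1)).comap (ev.comp sg - LinearMap.id) := by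
    refine PS_induction _ fun d hd => ?_
    rw [Submodule.mem_comap]
    show ev (sg (monomial d 1)) - monomial d 1 ∈ _
    rw [sg_monomial]
    have h := ev_wd_lead (sw d)
    rw [cnt_sw, sw_length] at h
    exact PS_mono (by omega) h
  exact fun p hp => this hp

theorem mem_PS_of_ev_sg (m : ℤ) (n : ℕ) : ∀ p : S, p ∈ PS (m + n) → ev (sg p) ∈ PS m → p ∈ PS m := by
  induction n with
  | zero => intro p hp _; simpa using hp
  | succ n ih =>
    intro p hp hev
    refine ih p ?_ hev
    have h1 := ev_sg _ p hp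
    have h2 : p = ev (sg p) - (ev (sg p) - p) := by abel
    rw [h2]
    refine Submodule.sub_mem _ (PS_mono (by omega) hev) (PS_mono ?_ h1)
    push_cast
    omega

theorem exists_PS (p : S) : ∃ k : ℕ, p ∈ PS k :=
  ⟨p.totalDegree, fun d hd => by
    have := MvPolynomial.le_totalDegree hd
    rw [Finsupp.degree_apply]
    exact_mod_cast this⟩

theorem mem_PS_of_ev_sg' (m : ℤ) (p : S) (h : ev (sg p) ∈ PS m) : p ∈ PS m := by
  obtain ⟨k, hk⟩ := exists_PS p
  rcases le_or_gt (k : ℤ) m with h1 | h1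
  · exact PS_mono h1 hk
  · refine mem_PS_of_ev_sg m (k - m).toNat p ?_ h
    have : m + ((k - m).toNat : ℤ) = k := by omega
    rwa [this]

/-- induction principle -/
theorem mem_adjoin (u : U) : u ∈ Algebra.adjoin ℂ (Set.range (UniversalEnvelopingAlgebra.ι ℂ : gl2 → U)) := by
  let A : Subalgebra ℂ U := Algebra.adjoin ℂ (Set.range (UniversalEnvelopingAlgebra.ι ℂ : gl2 → U))
  let f : gl2 →ₗ⁅ℂ⁆ A :=
    { toFun := fun x => ⟨UniversalEnvelopingAlgebra.ι ℂ x, Algebra.subset_adjoin ⟨x, rfl⟩⟩
      map_add' := fun x y => Subtype.ext (map_add _ x y)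
      map_smul' := fun c x => Subtype.ext (map_smul _ c x)
      map_lie' := fun {x y} => Subtype.ext (by
        show UniversalEnvelopingAlgebra.ι ℂ ⁅x, y⁆ = _
        rw [LieHom.map_lie, LieRing.of_associative_ring_bracket, LieRing.of_associative_ring_bracket]
        rfl) }
  have h : A.val.comp (UniversalEnvelopingAlgebra.lift ℂ f) = AlgHom.id ℂ U := by
    apply UniversalEnvelopingAlgebra.hom_ext
    refine LieHom.ext fun x => ?_
    show ((UniversalEnvelopingAlgebra.lift ℂ f (UniversalEnvelopingAlgebra.ι ℂ x) : A) : U) = UniversalEnvelopingAlgebra.ι ℂ x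
    rw [UniversalEnvelopingAlgebra.lift_ι_apply]
    rfl
  have h2 := congrArg (fun g => g u) h
  have h3 : ((UniversalEnvelopingAlgebra.lift ℂ f u : A) : U) = u := h2
  rw [← h3]
  exact (UniversalEnvelopingAlgebra.lift ℂ f u : A).2

theorem exists_pow (u : U) : ∃ k : ℕ, u ∈ G1 ^ k := by
  refine Algebra.adjoin_induction (p := fun u _ => ∃ k : ℕ, u ∈ G1 ^ k) ?_ ?_ ?_ ?_ (mem_adjoin u)
  · rintro _ ⟨x, rfl⟩
    refine ⟨1, ?_⟩
    rw [pow_one, ι_eq]
    exact Submodule.sum_mem _ fun c _ => Submodule.smul_mem _ _ (e_mem_G1 c)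
  · intro c
    refine ⟨0, ?_⟩
    rw [pow_zero]
    exact Submodule.algebraMap_mem c
  · rintro x y _ _ ⟨k, hk⟩ ⟨l, hl⟩
    exact ⟨max k l, Submodule.add_mem _ (pow_mono (le_max_left _ _) hk) (pow_mono (le_max_right _ _) hl)⟩
  · rintro x y _ _ ⟨k, hk⟩ ⟨l, hl⟩
    refine ⟨k + l, ?_⟩
    rw [pow_add]
    exact Submodule.mul_mem_mul hk hl

theorem exists_sg (u : U) : ∃ p : S, sg p = u := by
  obtain ⟨k, hk⟩ := exists_pow u
  obtain ⟨p, _, hp⟩ := Wk_le k (pow_le_Wk k hk)
  exact ⟨p, hp⟩

theorem ev_injective : Function.Injective ev := by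
  rw [injective_iff_map_eq_zero]
  intro u hu
  obtain ⟨p, rfl⟩ := exists_sg u
  have h : p ∈ PS (-1) := mem_PS_of_ev_sg' (-1) p (by rw [hu]; exact Submodule.zero_mem _)
  rw [PS_neg (by norm_num), Submodule.mem_bot] at h
  rw [h, map_zero]

theorem ev_mem_of_pow {k : ℕ} {u : U} (h : u ∈ G1 ^ k) : ev u ∈ PS k := by
  have h1 : Wk k ≤ (PS k).comap ev := by
    rw [Wk, Submodule.span_le]
    rintro _ ⟨w, hw, rfl⟩
    exact PS_mono (by exact_mod_cast hw) (ev_wd_mem w)
  exact h1 (pow_le_Wk k h)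

theorem sg_mem_pow {k : ℕ} {p : S} (h : p ∈ PS k) : sg p ∈ G1 ^ k := by
  have h1 : PS k ≤ (G1 ^ k).comap sg := by
    refine PS_induction _ fun d hd => ?_
    rw [Submodule.mem_comap, sg_monomial]
    refine pow_mono ?_ (wd_mem_pow (sw d))
    rw [sw_length]
    exact_mod_cast hd
  exact h1 h

theorem mem_FU (m : ℤ) (u : U) : u ∈ FU m ↔ ev u ∈ PS m := by
  rcases lt_or_ge m 0 with h | h
  · rw [FU_neg h, PS_neg h, Submodule.mem_bot, Submodule.mem_bot]
    exact ⟨fun h => by rw [h, map_zero], fun h => ev_injective (by rw [h, map_zero])⟩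
  · obtain ⟨k, rfl⟩ := Int.eq_ofNat_of_zero_le h
    rw [FU_nat]
    refine ⟨ev_mem_of_pow, fun hu => ?_⟩
    obtain ⟨p, rfl⟩ := exists_sg u
    exact sg_mem_pow (mem_PS_of_ev_sg' k p hu)

theorem ev_surjective : Function.Surjective ev := by
  have key : ∀ (k : ℕ) (p : S), p ∈ PS ((k : ℤ) - 1) → ∃ u, ev u = p := by
    intro k
    induction k with
    | zero =>
      intro p hp
      rw [PS_neg (by norm_num), Submodule.mem_bot] at hp
      exact ⟨0, by rw [hp, map_zero]⟩
    | succ k ih =>
      intro p hp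
      push_cast at hp
      rw [add_sub_cancel_right] at hp
      obtain ⟨u, hu⟩ := ih (p - ev (sg p)) (by
        have := ev_sg _ p hp
        rw [← neg_mem_iff, neg_sub]
        exact this)
      exact ⟨sg p + u, by rw [map_add, hu]; abel⟩
  intro p
  obtain ⟨k, hk⟩ := exists_PS p
  exact key (k + 1) p (by push_cast; rwa [add_sub_cancel_right])

/-- the linear equivalence `U ≃ S` -/
noncomputable def evE : U ≃ₗ[ℂ] S := LinearEquiv.ofBijective ev ⟨ev_injective, ev_surjective⟩

theorem evE_apply (u : U) : evE u = ev u := rfl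

/-- commutative multiplication -/
noncomputable def mulU (a : Fin 4) : U →ₗ[ℂ] U :=
  evE.symm.toLinearMap ∘ₗ (LinearMap.mulLeft ℂ (X a : S)) ∘ₗ evE.toLinearMap

/-- derivative -/
noncomputable def derU (a : Fin 4) : U →ₗ[ℂ] U :=
  evE.symm.toLinearMap ∘ₗ (pderiv (R := ℂ) a).toLinearMap ∘ₗ evE.toLinearMap

theorem ev_mulU (a : Fin 4) (u : U) : ev (mulU a u) = X a * ev u := by
  rw [← evE_apply, mulU]
  simp [evE_apply]

theorem ev_derU (a : Fin 4) (u : U) : ev (derU a u) = pderiv a (ev u) := by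
  rw [← evE_apply, derU]
  simp [evE_apply]

/-- right multiplication -/
theorem rho_Rr_comm (u : U) (y : gl2) (p : S) : rho u (Rr y p) = Rr y (rho u p) := by
  revert p
  refine Algebra.adjoin_induction (p := fun u _ => ∀ p, rho u (Rr y p) = Rr y (rho u p)) ?_ ?_ ?_ ?_ (mem_adjoin u)
  · rintro _ ⟨x, rfl⟩ p
    rw [rho_ι]
    exact T_Rr_comm x y p
  · intro c p
    rw [AlgHom.commutes, Module.algebraMap_end_apply, Module.algebraMap_end_apply, map_smul]
  · intro u v _ _ hu hv p
    rw [map_add, LinearMap.add_apply, LinearMap.add_apply, hu, hv, map_add]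
  · intro u v _ _ hu hv p
    rw [map_mul, Module.End.mul_apply, Module.End.mul_apply, hv, hu]

theorem ev_mul_ι (u : U) (y : gl2) : ev (u * UniversalEnvelopingAlgebra.ι ℂ y) = Rr y (ev u) := by
  have h : T y 1 = Rr y 1 := by
    rw [T_apply, Rr_apply, Derivation.map_one_eq_zero, Derivation.map_one_eq_zero]
  rw [ev_apply, map_mul, rho_ι, Module.End.mul_apply, h, rho_Rr_comm, ev_apply]

theorem ev_mul_e (u : U) (a : Fin 4) : ev (u * e a) = X a * ev u + Rd (eg a) (ev u) := by
  rw [e, ev_mul_ι, Rr_apply, xl_eg]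

theorem euler_aux (m : ℤ) : ∀ p ∈ PS m, (∑ a, X a * pderiv a p) - (m : ℂ) • p ∈ PS (m - 1) := by
  let D : S →ₗ[ℂ] S := (∑ a, (LinearMap.mulLeft ℂ (X a : S)) ∘ₗ (pderiv (R := ℂ) a).toLinearMap) -
    (m : ℂ) • LinearMap.id
  have hD : ∀ p, D p = (∑ a, X a * pderiv a p) - (m : ℂ) • p := by
    intro p
    simp [D, LinearMap.sum_apply]
  have : PS m ≤ (PS (m - 1)).comap D := by
    refine PS_induction _ fun d hd => ?_
    rw [Submodule.mem_comap, hD]
    have h1 : ∀ a, X a * pderiv a (monomial d (1 : ℂ)) = (d a : ℂ) • monomial d (1 : ℂ) := by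
      intro a
      rw [pderiv_monomial, one_mul, X, monomial_mul, one_mul, smul_monomial, smul_eq_mul, mul_one]
      by_cases h0 : d a = 0
      · simp [h0]
      · congr 1
        rw [add_tsub_cancel_of_le]
        rw [Finsupp.single_le_iff]
        omega
    rw [Finset.sum_congr rfl fun a _ => h1 a, ← Finset.sum_smul, ← sub_smul]
    have h2 : (∑ a, (d a : ℂ)) = (d.degree : ℂ) := by
      rw [Finsupp.degree_eq_sum]
      push_cast
      rfl
    rw [h2]
    rcases eq_or_lt_of_le hd with h | h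
    · rw [← h]
      simp
    · refine Submodule.smul_mem _ _ (monomial_mem_PS _ _ (by omega))
  intro p hp
  rw [← hD]
  exact this hp

theorem det_aux (m : ℤ) (p : S) (h : X 0 * (X 3 * p) - X 1 * (X 2 * p) ∈ PS (m + 2)) : p ∈ PS m := by
  by_cases hp : p = 0
  · rw [hp]; exact Submodule.zero_mem _
  let q : S := X 0 * X 3 - X 1 * X 2
  have hq : q.totalDegree = 2 ∧ q ≠ 0 := by
    have hc : coeff (Finsupp.single 0 1 + Finsupp.single 3 1) q = 1 := by
      have h1 : (X 0 * X 3 : S) = monomial (Finsupp.single 0 1 + Finsupp.single 3 1) 1 := by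
        rw [X, X, monomial_mul, one_mul]
      have h2 : (X 1 * X 2 : S) = monomial (Finsupp.single 1 1 + Finsupp.single 2 1) 1 := by
        rw [X, X, monomial_mul, one_mul]
      show coeff _ (X 0 * X 3 - X 1 * X 2) = _
      rw [h1, h2, coeff_sub, coeff_monomial, coeff_monomial, if_pos rfl, if_neg, sub_zero]
      intro h3
      have := congrArg (fun f => f 0) h3
      simp at this
    have hq0 : q ≠ 0 := by
      intro h0
      rw [h0] at hc
      simp at hc
    have hom : q.IsHomogeneous 2 :=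
      ((isHomogeneous_X ℂ 0).mul (isHomogeneous_X ℂ 3)).sub
        ((isHomogeneous_X ℂ 1).mul (isHomogeneous_X ℂ 2))
    exact ⟨hom.totalDegree hq0, hq0⟩
  have h1 : X 0 * (X 3 * p) - X 1 * (X 2 * p) = q * p := by
    show _ = (X 0 * X 3 - X 1 * X 2) * p
    ring
  rw [h1] at h
  have h2 : (q * p).totalDegree = 2 + p.totalDegree := by
    rw [totalDegree_mul_of_isDomain hq.2 hp, hq.1]
  have h3 : q * p ≠ 0 := mul_ne_zero hq.2 hp
  have h4 : ((q * p).totalDegree : ℤ) ≤ m + 2 := by
    obtain ⟨d, hd, hd2⟩ := Finset.exists_mem_eq_sup (q * p).support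
      (MvPolynomial.support_nonempty.2 h3) (fun s => s.sum fun _ e => e)
    have h8 := h d hd
    have h9 : (q * p).totalDegree = d.degree := hd2
    rw [h9]
    exact h8
  intro d hd
  have h5 := MvPolynomial.le_totalDegree hd
  rw [h2] at h4
  rw [Finsupp.degree_apply]
  push_cast at h4
  have h6 : ((d.sum fun _ e => e : ℕ) : ℤ) ≤ p.totalDegree := by exact_mod_cast h5
  have h7 : ((d.sum fun _ e => e : ℕ) : ℤ) = ((∑ i ∈ d.support, d i : ℕ) : ℤ) := rfl
  rw [h7] at h6
  omega

theorem pderiv_comm' (a b : Fin 4) (p : S) : pderiv a (pderiv b p) = pderiv b (pderiv a p) := by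
  have h : ⁅(pderiv a : Derivation ℂ S S), (pderiv b : Derivation ℂ S S)⁆ = 0 := by
    apply MvPolynomial.derivation_ext
    intro c
    rw [Derivation.commutator_apply, pderiv_X, pderiv_X]
    by_cases h1 : c = b <;> by_cases h2 : c = a <;>
      simp [Pi.single_apply, h1, h2, apply_ite]
  have h2 := Derivation.congr_fun h p
  rw [Derivation.commutator_apply] at h2
  exact sub_eq_zero.1 h2

theorem pbwData : PBWData mulU derU where
  mul_mul a b u := ev_injective (by simp only [ev_mulU]; ring)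
  der_der a b u := ev_injective (by
    simp only [ev_derU]
    exact pderiv_comm' a b (ev u))
  der_mul a b u := ev_injective (by
    rw [ev_derU, ev_mulU, Derivation.leibniz, map_add, ev_mulU, ev_derU, pderiv_X]
    split_ifs with h
    · subst h; simp [add_comm]
    · rw [Pi.single_eq_of_ne (Ne.symm h)]; simp)
  mul_mem a m u h := by
    rw [mem_FU] at h ⊢
    rw [ev_mulU]
    exact X_mul_mem a h
  der_mem a m u h := by
    rw [mem_FU] at h ⊢
    rw [ev_derU]
    exact pderiv_mem a h
  euler m u h := by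
    rw [mem_FU] at h ⊢
    rw [map_sub, map_sum, map_smul]
    simp only [ev_mulU, ev_derU]
    exact euler_aux m _ h
  right a m u h := by
    rw [mem_FU] at h ⊢
    rw [map_sub, ev_mul_e, ev_mulU, add_sub_cancel_left]
    exact Rd_mem _ h
  left a m u h := by
    rw [mem_FU] at h ⊢
    rw [map_sub, ev_e_mul, ev_mulU, add_sub_cancel_left]
    exact Ld_mem _ h
  det_strict m u h := by
    rw [mem_FU] at h ⊢
    rw [map_sub] at h
    simp only [ev_mulU] at h
    exact det_aux m _ h

theorem G1_finite : Module.Finite ℂ G1 := by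
  rw [G1]
  exact Module.Finite.span_of_finite ℂ ((Set.finite_range e).insert 1)

end PBW

open PBW in
/-- T1 -/
theorem pbw : PBWStmt := by
  refine ⟨⟨mulU, derU, pbwData⟩, fun m h => FU_neg h, ?_, ?_, ?_, ?_, ?_, ?_, ?_, ?_⟩
  · intro m n h u hu
    rw [mem_FU] at hu ⊢
    exact PS_mono h hu
  · intro u
    obtain ⟨k, hk⟩ := exists_pow u
    exact ⟨k, by omega, by rw [FU_nat]; exact hk⟩
  · intro u hu
    have : FU 0 = 1 := by
      have := FU_nat 0
      simpa using this
    rw [this, Submodule.mem_one] at hu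
    obtain ⟨c, hc⟩ := hu
    exact ⟨c, hc.symm⟩
  · intro m
    rcases lt_or_ge m 0 with h | h
    · rw [FU_neg h]; infer_instance
    · obtain ⟨k, rfl⟩ := Int.eq_ofNat_of_zero_le h
      rw [FU_nat]
      have := (Submodule.fg_top G1).1 G1_finite.1
      exact Module.Finite.iff_fg.2 (this.pow k)
  · intro m n u v hu hv
    rcases lt_or_ge m 0 with h | h
    · rw [FU_neg h, Submodule.mem_bot] at hu
      rw [hu, zero_mul]; exact Submodule.zero_mem _
    rcases lt_or_ge n 0 with h' | h'
    · rw [FU_neg h', Submodule.mem_bot] at hv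
      rw [hv, mul_zero]; exact Submodule.zero_mem _
    obtain ⟨k, rfl⟩ := Int.eq_ofNat_of_zero_le h
    obtain ⟨l, rfl⟩ := Int.eq_ofNat_of_zero_le h'
    rw [FU_nat] at hu hv
    have : ((k : ℤ) + (l : ℤ)) = ((k + l : ℕ) : ℤ) := by push_cast; rfl
    rw [this, FU_nat, pow_add]
    exact Submodule.mul_mem_mul hu hv
  · have := FU_nat 0
    rw [Nat.cast_zero, pow_zero] at this
    rw [this]
    exact Submodule.one_le.1 (le_refl (1 : Submodule ℂ U))
  · intro a
    have := FU_nat 1
    rw [Nat.cast_one, pow_one] at this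
    rw [this]
    exact e_mem_G1 a
  · intro c d h
    have h1 := congrArg ev h
    rw [Algebra.algebraMap_eq_smul_one, Algebra.algebraMap_eq_smul_one, map_smul, map_smul, ev_one] at h1
    have h2 := congrArg (coeff 0) h1
    simpa using h2

end Crest.Agent.R178
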