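import Crest.Agent.R178.Defs

/-! Row 178, T1: PBW for `gl_2` in the form needed (helper507). -/

set_option autoImplicit false

open MvPolynomial

namespace Crest.Agent.R178

attribute [local instance 100] LieRing.ofAssociativeRing

namespace PBW

/-- the polynomial model -/
abbrev S := MvPolynomial (Fin 4) ℂ

theorem gl_eq (x : gl2) : x = ∑ a, x (rw' a) (cl' a) • eg a := by
  ext i j
  fin_cases i <;> fin_cases j <;> simp [Fin.sum_univ_four, eg, rw', cl', Matrix.single]

/-- linear symbol -/
noncomputable def xl : gl2 →ₗ[ℂ] S where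
  toFun x := ∑ a, x (rw' a) (cl' a) • X a
  map_add' x y := by simp [add_smul, Finset.sum_add_distrib]
  map_smul' c x := by simp [Finset.smul_sum, smul_smul]

theorem xl_apply (x : gl2) : xl x = ∑ a, x (rw' a) (cl' a) • (X a : S) := rfl

theorem xl_eg (a : Fin 4) : xl (eg a) = X a := by
  rw [xl_apply]
  fin_cases a <;> simp [Fin.sum_univ_four, eg, rw', cl', Matrix.single]

/-- left derivation -/
noncomputable def Ld (x : gl2) : Derivation ℂ S S := ∑ b, (xl (x * eg b)) • pderiv b

/-- right derivation -/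
noncomputable def Rd (x : gl2) : Derivation ℂ S S := ∑ b, (xl (eg b * x)) • pderiv b

theorem Ld_apply (x : gl2) (p : S) : Ld x p = ∑ b, xl (x * eg b) * pderiv b p := by
  simp [Ld, Fin.sum_univ_four]

theorem Rd_apply (x : gl2) (p : S) : Rd x p = ∑ b, xl (eg b * x) * pderiv b p := by
  simp [Rd, Fin.sum_univ_four]

theorem Ld_X (x : gl2) (b : Fin 4) : Ld x (X b) = xl (x * eg b) := by
  rw [Ld_apply]
  simp [pderiv_X, Pi.single_apply]

theorem Rd_X (x : gl2) (b : Fin 4) : Rd x (X b) = xl (eg b * x) := by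
  rw [Rd_apply]
  simp [pderiv_X, Pi.single_apply]

theorem Ld_xl (x y : gl2) : Ld x (xl y) = xl (x * y) := by
  conv_rhs => rw [gl_eq y]
  rw [xl_apply y, map_sum, Finset.mul_sum, map_sum]
  refine Finset.sum_congr rfl fun a _ => ?_
  rw [Derivation.map_smul, Ld_X, Matrix.mul_smul, map_smul]

theorem Rd_xl (x y : gl2) : Rd x (xl y) = xl (y * x) := by
  conv_rhs => rw [gl_eq y]
  rw [xl_apply y, map_sum, Finset.sum_mul, map_sum]
  refine Finset.sum_congr rfl fun a _ => ?_
  rw [Derivation.map_smul, Rd_X, Matrix.smul_mul, map_smul]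

/-- left operators -/
noncomputable def T (x : gl2) : Module.End ℂ S := LinearMap.mulLeft ℂ (xl x) + (Ld x).toLinearMap

/-- right operators -/
noncomputable def Rr (x : gl2) : Module.End ℂ S := LinearMap.mulLeft ℂ (xl x) + (Rd x).toLinearMap

theorem T_apply (x : gl2) (p : S) : T x p = xl x * p + Ld x p := rfl
theorem Rr_apply (x : gl2) (p : S) : Rr x p = xl x * p + Rd x p := rfl

theorem Ld_comm (x y : gl2) (p : S) : Ld x (Ld y p) - Ld y (Ld x p) = Ld (x * y - y * x) p := by
  have h : ⁅Ld x, Ld y⁆ = Ld (x * y - y * x) := by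
    apply MvPolynomial.derivation_ext
    intro b
    rw [Derivation.commutator_apply, Ld_X, Ld_X, Ld_X, Ld_xl, Ld_xl, sub_mul, map_sub, mul_assoc,
      mul_assoc]
  rw [← h, Derivation.commutator_apply]

theorem LdRd_comm (x y : gl2) (p : S) : Ld x (Rd y p) = Rd y (Ld x p) := by
  have h : ⁅Ld x, Rd y⁆ = 0 := by
    apply MvPolynomial.derivation_ext
    intro b
    rw [Derivation.commutator_apply, Rd_X, Ld_X, Ld_xl, Rd_xl, mul_assoc, sub_self]
    rfl
  have h2 := Derivation.congr_fun h p
  rw [Derivation.commutator_apply] at h2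
  exact sub_eq_zero.1 h2

theorem T_comm (x y : gl2) (p : S) : T x (T y p) - T y (T x p) = T (x * y - y * x) p := by
  simp only [T_apply, map_add, Derivation.leibniz, Ld_xl, map_sub, smul_eq_mul]
  rw [← Ld_comm]
  ring

theorem T_Rr_comm (x y : gl2) (p : S) : T x (Rr y p) = Rr y (T x p) := by
  simp only [T_apply, Rr_apply, map_add, Derivation.leibniz, Ld_xl, Rd_xl, smul_eq_mul]
  rw [← LdRd_comm]
  ring

theorem T_add (x y : gl2) : T (x + y) = T x + T y := by
  refine LinearMap.ext fun p => ?_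
  simp only [T_apply, LinearMap.add_apply, map_add, Ld_apply, add_mul, Finset.sum_add_distrib]
  ring

theorem T_smul (c : ℂ) (x : gl2) : T (c • x) = c • T x := by
  refine LinearMap.ext fun p => ?_
  simp only [T_apply, LinearMap.smul_apply, map_smul, Ld_apply, Matrix.smul_mul, smul_mul_assoc,
    Finset.smul_sum, smul_add]

/-- the representation as a Lie homomorphism -/
noncomputable def Tlie : gl2 →ₗ⁅ℂ⁆ Module.End ℂ S where
  toFun := T
  map_add' := T_add
  map_smul' := T_smul
  map_lie' := by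
    intro x y
    refine LinearMap.ext fun p => ?_
    rw [LieRing.of_associative_ring_bracket, LieRing.of_associative_ring_bracket,
      LinearMap.sub_apply, Module.End.mul_apply, Module.End.mul_apply, T_comm]

/-- the representation of `U` on `S` -/
noncomputable def rho : U →ₐ[ℂ] Module.End ℂ S := UniversalEnvelopingAlgebra.lift ℂ Tlie

theorem rho_ι (x : gl2) : rho (UniversalEnvelopingAlgebra.ι ℂ x) = T x := by
  rw [rho]
  exact UniversalEnvelopingAlgebra.lift_ι_apply ℂ Tlie x

/-- evaluation at `1` -/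
noncomputable def ev : U →ₗ[ℂ] S where
  toFun u := rho u 1
  map_add' u v := by simp
  map_smul' c u := by simp

theorem ev_apply (u : U) : ev u = rho u 1 := rfl

theorem ev_one : ev 1 = 1 := by simp [ev_apply]

theorem ev_ι_mul (x : gl2) (u : U) : ev (UniversalEnvelopingAlgebra.ι ℂ x * u) = T x (ev u) := by
  rw [ev_apply, map_mul, rho_ι]
  rfl

theorem ev_e_mul (a : Fin 4) (u : U) : ev (e a * u) = X a * ev u + Ld (eg a) (ev u) := by
  rw [e, ev_ι_mul, T_apply, xl_eg]

/-- words -/
noncomputable def wd (w : List (Fin 4)) : U := (w.map e).prod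

@[simp] theorem wd_nil : wd [] = 1 := rfl
@[simp] theorem wd_cons (a : Fin 4) (w : List (Fin 4)) : wd (a :: w) = e a * wd w := by
  simp [wd]
theorem wd_append (v w : List (Fin 4)) : wd (v ++ w) = wd v * wd w := by
  simp [wd]

theorem ι_eq (x : gl2) : UniversalEnvelopingAlgebra.ι ℂ x = ∑ a, x (rw' a) (cl' a) • e a := by
  conv_lhs => rw [gl_eq x]
  rw [map_sum]
  exact Finset.sum_congr rfl fun a _ => by rw [map_smul]; rfl

theorem wd_mem_pow (w : List (Fin 4)) : wd w ∈ G1 ^ w.length := by
  induction w with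
  | nil => simpa using Submodule.one_le.1 (le_refl (1 : Submodule ℂ U))
  | cons a w ih =>
    rw [wd_cons, List.length_cons, pow_succ']
    exact Submodule.mul_mem_mul (Submodule.subset_span (Or.inr ⟨a, rfl⟩)) ih

theorem one_mem_G1 : (1 : U) ∈ G1 := Submodule.subset_span (Or.inl rfl)

theorem e_mem_G1 (a : Fin 4) : e a ∈ G1 := Submodule.subset_span (Or.inr ⟨a, rfl⟩)

theorem one_le_G1 : (1 : Submodule ℂ U) ≤ G1 := Submodule.one_le.2 one_mem_G1

theorem pow_mono {m n : ℕ} (h : m ≤ n) : G1 ^ m ≤ G1 ^ n := pow_le_pow_right' one_le_G1 h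

/-- span of words of bounded length -/
noncomputable def Wk (k : ℕ) : Submodule ℂ U := Submodule.span ℂ {u | ∃ w : List (Fin 4), w.length ≤ k ∧ wd w = u}

theorem G1_mul_Wk (k : ℕ) : G1 * Wk k ≤ Wk (k + 1) := by
  rw [G1, Wk, Submodule.span_mul_span, Submodule.span_le]
  rintro _ ⟨x, hx, y, ⟨w, hw, rfl⟩, rfl⟩
  rcases hx with rfl | ⟨a, rfl⟩
  · exact Submodule.subset_span ⟨w, by omega, (one_mul _).symm⟩
  · exact Submodule.subset_span ⟨a :: w, by simpa using hw, by simp⟩

theorem pow_le_Wk (k : ℕ) : G1 ^ k ≤ Wk k := by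
  induction k with
  | zero =>
    rw [pow_zero, Submodule.one_le]
    exact Submodule.subset_span ⟨[], le_refl _, rfl⟩
  | succ k ih =>
    rw [pow_succ']
    exact (mul_le_mul' (le_refl G1) ih).trans (G1_mul_Wk k)

theorem comm_mem (a b : Fin 4) : e a * e b - e b * e a ∈ G1 := by
  have h : e a * e b - e b * e a = UniversalEnvelopingAlgebra.ι ℂ ⁅eg a, eg b⁆ := by
    rw [LieHom.map_lie]
    exact (LieRing.of_associative_ring_bracket _ _).symm
  rw [h, ι_eq]
  exact Submodule.sum_mem _ fun c _ => Submodule.smul_mem _ _ (e_mem_G1 c)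

theorem FU_nat (k : ℕ) : FU (k : ℤ) = G1 ^ k := by
  simp [FU]

theorem FU_neg {m : ℤ} (h : m < 0) : FU m = ⊥ := by
  simp [FU, not_le.2 h]

theorem perm_mem {w w' : List (Fin 4)} (h : w.Perm w') : ∀ k : ℕ, w.length = k + 1 → wd w - wd w' ∈ G1 ^ k := by
  induction h with
  | nil => intro k hk; simp at hk
  | cons a h ih =>
    rename_i l₁ l₂
    intro k hk
    rw [List.length_cons] at hk
    rw [wd_cons, wd_cons, ← mul_sub]
    cases k with
    | zero =>
      have h1 : l₁ = [] := List.length_eq_zero_iff.1 (by omega)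
      subst h1
      have h2 : l₂ = [] := h.symm.eq_nil
      subst h2
      simp
    | succ k =>
      rw [pow_succ']
      exact Submodule.mul_mem_mul (e_mem_G1 a) (ih k (by omega))
  | swap a b l =>
    intro k hk
    simp only [List.length_cons] at hk
    have h1 : wd (b :: a :: l) - wd (a :: b :: l) = (e b * e a - e a * e b) * wd l := by
      simp only [wd_cons]; noncomm_ring
    rw [h1]
    have h2 : k = l.length + 1 := by omega
    rw [h2, pow_succ']
    exact Submodule.mul_mem_mul (comm_mem b a) (wd_mem_pow l)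
  | trans h1 h2 ih1 ih2 =>
    rename_i l₁ l₂ l₃
    intro k hk
    have h3 := ih1 k hk
    have h4 := ih2 k (by rw [← h1.length_eq]; exact hk)
    have : wd l₁ - wd l₃ = (wd l₁ - wd l₂) + (wd l₂ - wd l₃) := by abel
    rw [this]
    exact Submodule.add_mem _ h3 h4

/-- sorted word attached to a multidegree -/
def sw (d : Fin 4 →₀ ℕ) : List (Fin 4) :=
  List.replicate (d 0) 0 ++ (List.replicate (d 1) 1 ++ (List.replicate (d 2) 2 ++ List.replicate (d 3) 3))

theorem sw_length (d : Fin 4 →₀ ℕ) : (sw d).length = d.degree := by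
  simp [sw, Finsupp.degree_eq_sum, Fin.sum_univ_four, add_assoc]

/-- multidegree of a word -/
noncomputable def cnt (w : List (Fin 4)) : Fin 4 →₀ ℕ := Finsupp.equivFunOnFinite.symm fun a => w.count a

theorem sw_cnt_perm (w : List (Fin 4)) : w.Perm (sw (cnt w)) := by
  rw [List.perm_iff_count]
  intro a
  fin_cases a <;> simp [sw, cnt, List.count_append, List.count_replicate]

/-- polynomials of degree at most `m` -/
def PS (m : ℤ) : Submodule ℂ S where
  carrier := {p | ∀ d ∈ p.support, (d.degree : ℤ) ≤ m}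
  add_mem' := by
    intro p q hp hq d hd
    rcases Finset.mem_union.1 (MvPolynomial.support_add hd) with h | h
    · exact hp d h
    · exact hq d h
  zero_mem' := by simp
  smul_mem' := by
    intro c p hp d hd
    exact hp d (MvPolynomial.support_smul hd)

theorem mem_PS {m : ℤ} {p : S} : p ∈ PS m ↔ ∀ d ∈ p.support, (d.degree : ℤ) ≤ m := Iff.rfl

theorem monomial_mem_PS {m : ℤ} (d : Fin 4 →₀ ℕ) (c : ℂ) (h : (d.degree : ℤ) ≤ m) :
    monomial d c ∈ PS m := by
  intro d' hd'
  have := MvPolynomial.support_monomial_subset hd'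
  rw [Finset.mem_singleton] at this
  rw [this]; exact h

theorem PS_induction {m : ℤ} (N : Submodule ℂ S)
    (h : ∀ (d : Fin 4 →₀ ℕ), (d.degree : ℤ) ≤ m → monomial d (1 : ℂ) ∈ N) : PS m ≤ N := by
  intro p hp
  rw [p.as_sum]
  refine Submodule.sum_mem _ fun d hd => ?_
  have : monomial d (coeff d p) = (coeff d p) • monomial d (1 : ℂ) := by
    rw [smul_monomial, smul_eq_mul, mul_one]
  rw [this]
  exact Submodule.smul_mem _ _ (h d (hp d hd))

theorem PS_mono {m n : ℤ} (h : m ≤ n) : PS m ≤ PS n := fun _ hp d hd => (hp d hd).trans h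

theorem PS_neg {m : ℤ} (h : m < 0) : PS m = ⊥ := by
  rw [eq_bot_iff]
  intro p hp
  rw [Submodule.mem_bot, ← MvPolynomial.support_eq_empty, Finset.eq_empty_iff_forall_notMem]
  intro d hd
  have := hp d hd
  omega

theorem X_mul_mem {m : ℤ} (a : Fin 4) {p : S} (hp : p ∈ PS m) : X a * p ∈ PS (m + 1) := by
  have : PS m ≤ (PS (m + 1)).comap (LinearMap.mulLeft ℂ (X a : S)) := by
    refine PS_induction _ fun d hd => ?_
    rw [Submodule.mem_comap, LinearMap.mulLeft_apply, X, monomial_mul, one_mul]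
    refine monomial_mem_PS _ _ ?_
    rw [map_add, Finsupp.degree_single]
    push_cast
    omega
  exact this hp

theorem pderiv_mem {m : ℤ} (a : Fin 4) {p : S} (hp : p ∈ PS m) : pderiv a p ∈ PS (m - 1) := by
  have : PS m ≤ (PS (m - 1)).comap (pderiv (R := ℂ) a).toLinearMap := by
    refine PS_induction _ fun d hd => ?_
    rw [Submodule.mem_comap]
    show pderiv a (monomial d (1 : ℂ)) ∈ _
    rw [pderiv_monomial]
    by_cases h0 : d a = 0
    · simp [h0]
    · refine monomial_mem_PS _ _ ?_
      have h1 : d = (d - Finsupp.single a 1) + Finsupp.single a 1 := by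
        rw [tsub_add_cancel_of_le]
        rw [Finsupp.single_le_iff]
        omega
      have h2 : d.degree = (d - Finsupp.single a 1).degree + 1 := by
        conv_lhs => rw [h1]
        rw [map_add, Finsupp.degree_single]
      omega
  exact this hp

theorem xl_mul_mem {m : ℤ} (x : gl2) {p : S} (hp : p ∈ PS m) : xl x * p ∈ PS (m + 1) := by
  rw [xl_apply, Finset.sum_mul]
  refine Submodule.sum_mem _ fun a _ => ?_
  rw [smul_mul_assoc]
  exact Submodule.smul_mem _ _ (X_mul_mem a hp)

theorem Ld_mem {m : ℤ} (x : gl2) {p : S} (hp : p ∈ PS m) : Ld x p ∈ PS m := by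
  rw [Ld_apply]
  refine Submodule.sum_mem _ fun b _ => ?_
  have := xl_mul_mem (x * eg b) (pderiv_mem b hp)
  rwa [sub_add_cancel] at this

theorem Rd_mem {m : ℤ} (x : gl2) {p : S} (hp : p ∈ PS m) : Rd x p ∈ PS m := by
  rw [Rd_apply]
  refine Submodule.sum_mem _ fun b _ => ?_
  have := xl_mul_mem (eg b * x) (pderiv_mem b hp)
  rwa [sub_add_cancel] at this

end PBW

end Crest.Agent.R178
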