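import Crest.Agent.R178.Data

/-!
Row 178, T3: the polynomial model of the data `M_n`.
-/

set_option autoImplicit false
set_option maxHeartbeats 400000

open Finset MvPolynomial

namespace Crest.Agent.R178

attribute [local instance 100] LieRing.ofAssociativeRing

/-- polynomials in two variables -/
abbrev A2 := MvPolynomial (Fin 2) ℂ

/-- homogeneous polynomials of degree `n` in two variables -/
abbrev Hn (n : ℕ) : Submodule ℂ A2 := homogeneousSubmodule (Fin 2) ℂ n

/-- the derivation of `A2` attached to a matrix -/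
noncomputable def dv (x : gl2) : Derivation ℂ A2 A2 :=
  mkDerivation ℂ (fun j => ∑ i, x i j • (X i : A2))

theorem dv_X (x : gl2) (j : Fin 2) : dv x (X j) = ∑ i, x i j • (X i : A2) := by
  rw [dv, mkDerivation_X]

theorem dv_add (x y : gl2) : dv (x + y) = dv x + dv y := by
  apply derivation_ext
  intro j
  simp only [Derivation.add_apply, dv_X, Matrix.add_apply, add_smul, Finset.sum_add_distrib]

theorem dv_smul (c : ℂ) (x : gl2) : dv (c • x) = c • dv x := by
  apply derivation_ext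
  intro j
  simp only [Derivation.smul_apply, dv_X, Matrix.smul_apply, smul_assoc, Finset.smul_sum]

theorem dv_lie (x y : gl2) : dv (x * y - y * x) = ⁅dv x, dv y⁆ := by
  apply derivation_ext
  intro j
  rw [Derivation.commutator_apply, dv_X, dv_X, dv_X]
  simp only [Fin.sum_univ_two, map_add, Derivation.map_smul, dv_X, Matrix.sub_apply,
    Matrix.mul_apply]
  simp only [Algebra.smul_def, map_add, map_sub, map_mul]
  ring

theorem dv_eg (b : Fin 4) (f : A2) : dv (eg b) f = X (rw' b) * pderiv (cl' b) f := by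
  have h : dv (eg b) = (X (rw' b) : A2) • (pderiv (cl' b) : Derivation ℂ A2 A2) := by
    apply derivation_ext
    intro j
    rw [dv_X, Derivation.smul_apply, pderiv_X]
    fin_cases b <;> fin_cases j <;> simp [eg, rw', cl']
  rw [h]; rfl

theorem XD_mem (n : ℕ) (i j : Fin 2) (f : A2) (hf : f ∈ Hn n) : X i * pderiv j f ∈ Hn n := by
  rw [mem_homogeneousSubmodule] at hf ⊢
  cases n with
  | zero =>
    rw [← totalDegree_zero_iff_isHomogeneous, totalDegree_eq_zero_iff_eq_C] at hf
    rw [hf, pderiv_C, mul_zero]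
    exact isHomogeneous_zero _ _ _
  | succ n =>
    have h1 := (isHomogeneous_X ℂ i).mul (hf.pderiv (i := j))
    have h2 : 1 + (n + 1 - 1) = n + 1 := by omega
    rwa [h2] at h1

theorem dv_mem (n : ℕ) (x : gl2) (f : A2) (hf : f ∈ Hn n) : dv x f ∈ Hn n := by
  rw [gl2_eq x]
  simp only [dv_add, dv_smul, Derivation.add_apply, Derivation.smul_apply, dv_eg]
  exact add_mem (add_mem (add_mem (Submodule.smul_mem _ _ (XD_mem _ _ _ _ hf))
    (Submodule.smul_mem _ _ (XD_mem _ _ _ _ hf))) (Submodule.smul_mem _ _ (XD_mem _ _ _ _ hf)))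
    (Submodule.smul_mem _ _ (XD_mem _ _ _ _ hf))

/-- the action of `gl_2` on `Hn n` -/
noncomputable def lieRep (n : ℕ) : gl2 →ₗ⁅ℂ⁆ Module.End ℂ (Hn n) where
  toFun x := (dv x : A2 →ₗ[ℂ] A2).restrict (dv_mem n x)
  map_add' x y := by
    refine LinearMap.ext fun f => Subtype.ext ?_
    change dv (x + y) f.1 = dv x f.1 + dv y f.1
    rw [dv_add]; rfl
  map_smul' c x := by
    refine LinearMap.ext fun f => Subtype.ext ?_
    change dv (c • x) f.1 = c • dv x f.1
    rw [dv_smul]; rfl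
  map_lie' {x y} := by
    refine LinearMap.ext fun f => Subtype.ext ?_
    change dv (x * y - y * x) f.1 = dv x (dv y f.1) - dv y (dv x f.1)
    rw [dv_lie]; rfl

/-- the action of `U` on `Hn n` -/
noncomputable def repn (n : ℕ) : U →ₐ[ℂ] Module.End ℂ (Hn n) :=
  UniversalEnvelopingAlgebra.lift ℂ (lieRep n)

theorem repn_e (n : ℕ) (b : Fin 4) (f : Hn n) :
    ((repn n (e b) f : Hn n) : A2) = X (rw' b) * pderiv (cl' b) f.1 := by
  rw [repn, e, UniversalEnvelopingAlgebra.lift_ι_apply]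
  exact dv_eg b f.1

theorem pderiv_mem (n : ℕ) (k : Fin 2) (f : A2) (hf : f ∈ Hn (n + 1)) : pderiv k f ∈ Hn n :=
  IsHomogeneous.pderiv (n := n + 1) hf

theorem X_mul_mem (n : ℕ) (k : Fin 2) (f : A2) (hf : f ∈ Hn n) : X k * f ∈ Hn (n + 1) := by
  have h1 := (isHomogeneous_X ℂ k).mul hf
  rw [add_comm] at h1
  exact h1

/-- derivative -/
noncomputable def dn (n : ℕ) (k : Fin 2) : Hn (n + 1) →ₗ[ℂ] Hn n :=
  ((pderiv k : Derivation ℂ A2 A2) : A2 →ₗ[ℂ] A2).restrict (pderiv_mem n k)

/-- multiplication -/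
noncomputable def xn (n : ℕ) (k : Fin 2) : Hn n →ₗ[ℂ] Hn (n + 1) :=
  (LinearMap.mulLeft ℂ (X k : A2)).restrict (X_mul_mem n k)

theorem dn_coe (n : ℕ) (k : Fin 2) (f : Hn (n + 1)) : ((dn n k f : Hn n) : A2) = pderiv k f.1 := rfl

theorem xn_coe (n : ℕ) (k : Fin 2) (f : Hn n) : ((xn n k f : Hn (n + 1)) : A2) = X k * f.1 := rfl

theorem pderiv_comm' (i j : Fin 2) (f : A2) : pderiv i (pderiv j f) = pderiv j (pderiv i f) := by
  have h : ⁅(pderiv i : Derivation ℂ A2 A2), (pderiv j : Derivation ℂ A2 A2)⁆ = 0 := by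
    apply derivation_ext
    intro k
    rw [Derivation.commutator_apply, pderiv_X, pderiv_X]
    have h1 : ∀ a b : Fin 2,
        (pderiv a : Derivation ℂ A2 A2) ((Pi.single b (1 : A2) : Fin 2 → A2) k) = 0 := by
      intro a b
      by_cases hb : k = b
      · rw [hb, Pi.single_eq_same]; exact pderiv_one
      · rw [Pi.single_eq_of_ne hb, map_zero]
    rw [h1, h1, sub_zero, Derivation.zero_apply]
  have h2 := congrArg (fun D : Derivation ℂ A2 A2 => D f) h
  simp only [Derivation.commutator_apply, Derivation.zero_apply] at h2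
  exact sub_eq_zero.1 h2

theorem euler (n : ℕ) (f : A2) (hf : f ∈ Hn n) :
    X 0 * pderiv 0 f + X 1 * pderiv 1 f = (n : ℂ) • f := by
  have h := IsHomogeneous.sum_X_mul_pderiv hf
  rw [Fin.sum_univ_two] at h
  rw [h, Nat.cast_smul_eq_nsmul]

theorem coe_sum2 (n : ℕ) (f g : Hn n) : ((f + g : Hn n) : A2) = f.1 + g.1 := rfl

theorem hE_n (n : ℕ) (b : Fin 4) (m : Hn (n + 1)) :
    repn (n + 1) (e b) m = xn n (rw' b) (dn n (cl' b) m) := by
  apply Subtype.ext
  rw [repn_e, xn_coe, dn_coe]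

theorem hdx_n (n : ℕ) (m : Hn n) : ∑ k, dn n k (xn n k m) = ((n : ℂ) + 2) • m := by
  apply Subtype.ext
  have h := euler n m.1 m.2
  rw [Fin.sum_univ_two, coe_sum2, dn_coe, dn_coe, xn_coe, xn_coe, Submodule.coe_smul]
  rw [pderiv_mul, pderiv_mul, pderiv_X_self, pderiv_X_self, add_smul, ← h, two_smul]
  ring

theorem hxd_n (n : ℕ) (m : Hn (n + 1)) : ∑ k, xn n k (dn n k m) = ((n : ℂ) + 2 - 1) • m := by
  apply Subtype.ext
  have h := euler (n + 1) m.1 m.2
  rw [Fin.sum_univ_two, coe_sum2, xn_coe, xn_coe, dn_coe, dn_coe, Submodule.coe_smul, h]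
  congr 1
  push_cast; ring

theorem hd_n (n : ℕ) (b : Fin 4) (k : Fin 2) (m : Hn (n + 1)) :
    repn n (e b) (dn n k m) - dn n k (repn (n + 1) (e b) m) =
      - if k = rw' b then dn n (cl' b) m else 0 := by
  apply Subtype.ext
  rw [Submodule.coe_sub, repn_e, dn_coe, dn_coe, repn_e, pderiv_mul, pderiv_comm' k (cl' b), pderiv_X]
  split_ifs with h
  · subst h
    rw [Submodule.coe_neg, dn_coe, Pi.single_eq_same]
    ring
  · rw [neg_zero, Submodule.coe_zero, Pi.single_eq_of_ne (Ne.symm h)]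
    ring

theorem hx_n (n : ℕ) (b : Fin 4) (k : Fin 2) (m : Hn n) :
    repn (n + 1) (e b) (xn n k m) - xn n k (repn n (e b) m) =
      if k = cl' b then xn n (rw' b) m else 0 := by
  apply Subtype.ext
  rw [Submodule.coe_sub, repn_e, xn_coe, xn_coe, repn_e, pderiv_mul, pderiv_X]
  split_ifs with h
  · subst h
    rw [xn_coe, Pi.single_eq_same]
    ring
  · rw [Submodule.coe_zero, Pi.single_eq_of_ne h]
    ring

theorem nu_ne (n : ℕ) : (n : ℂ) + 2 ≠ 0 := by
  have : ((n : ℂ) + 2) = ((n + 2 : ℕ) : ℂ) := by push_cast; ring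
  rw [this]
  exact Nat.cast_ne_zero.2 (by omega)

/-- the datum for `(M (n+1), M n)` -/
noncomputable def datumSucc (n : ℕ) : Datum (Hn (n + 1)) (Hn n) where
  a := repn (n + 1)
  a' := repn n
  d := dn n
  x := xn n
  ν := (n : ℂ) + 2
  hν := nu_ne n
  hE := hE_n n
  hdx := hdx_n n
  hxd := hxd_n n
  hd := hd_n n
  hx := hx_n n

/-- the trivial representation on `PUnit` -/
noncomputable def repPUnit : U →ₐ[ℂ] Module.End ℂ PUnit where
  toFun _ := 0
  map_one' := LinearMap.ext fun _ => rfl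
  map_mul' _ _ := LinearMap.ext fun _ => rfl
  map_zero' := rfl
  map_add' _ _ := LinearMap.ext fun _ => rfl
  commutes' _ := LinearMap.ext fun _ => rfl

theorem repn_zero_e (b : Fin 4) (f : Hn 0) : repn 0 (e b) f = 0 := by
  apply Subtype.ext
  rw [repn_e]
  have hf : f.1.IsHomogeneous 0 := f.2
  rw [← totalDegree_zero_iff_isHomogeneous, totalDegree_eq_zero_iff_eq_C] at hf
  rw [hf, pderiv_C, mul_zero]
  rfl

/-- the datum for `(M 0, 0)` -/
noncomputable def datumZero : Datum (Hn 0) PUnit where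
  a := repn 0
  a' := repPUnit
  d := fun _ => 0
  x := fun _ => 0
  ν := 1
  hν := one_ne_zero
  hE b m := by rw [repn_zero_e]; rfl
  hdx m := Subsingleton.elim _ _
  hxd m := by simp
  hd b k m := Subsingleton.elim _ _
  hx b k m := by simp

theorem finrank_Hn_zero : Module.finrank ℂ (Hn 0) = 1 := by
  have h : Hn 0 = Submodule.span ℂ {(1 : A2)} := by
    rw [Hn, homogeneousSubmodule_zero, Submodule.one_eq_span]
  rw [h]
  exact finrank_span_singleton one_ne_zero

theorem nontrivial_Hn (n : ℕ) : Nontrivial (Hn n) := by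
  refine ⟨⟨⟨X 0 ^ n, ?_⟩, 0, ?_⟩⟩
  · rw [mem_homogeneousSubmodule]
    have := (isHomogeneous_X ℂ (0 : Fin 2)).pow n
    rwa [one_mul] at this
  · intro h
    have h2 : (X 0 ^ n : A2) = 0 := congrArg Subtype.val h
    exact pow_ne_zero n (X_ne_zero (0 : Fin 2)) h2

/-- T3 -/
theorem datum : DatumStmt := by
  refine ⟨fun n => Hn n, fun n => inferInstance, fun n => inferInstance, repn, fun n => ?_,
    nontrivial_Hn, finrank_Hn_zero, ⟨datumZero, rfl⟩, fun n => ⟨datumSucc n, rfl, rfl⟩⟩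
  exact Module.Finite.iff_fg.2 (homogeneousSubmodule_fg (Fin 2) ℂ n)

end Crest.Agent.R178
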