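import Crest.Agent.R178.Data

/-! Row 178: statement of the `U`-level exactness (T4). -/

set_option autoImplicit false

namespace Crest.Agent.R178

/-- T4 -/
def UExactStmt : Prop :=
  (∀ (M M' : Type) [AddCommGroup M] [Module ℂ M] [AddCommGroup M'] [Module ℂ M']
    (D : Datum M M') (ι : Type) [Fintype ι] [DecidableEq ι] (b : Module.Basis ι ℂ M),
    FilExact (Vec ι FU) (tU D b) ∧ FilExact (Vec ι FV) (tV D b)) ∧
  (∀ (m : ℤ) (v : Fin 2 → U), cmap v ∈ FV (m + 1) → v ∈ FV m)

end Crest.Agent.R178
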