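import Crest.Agent.R178.Stmts
import Crest.Agent.R178.Koszul
import Crest.Agent.R178.Anti

/-!
Row 178, T5: exactness over `UU = U ⋉ N`.
-/

set_option autoImplicit false

open Finset

namespace Crest.Agent.R178

set_option linter.unusedSectionVars false

attribute [local instance 100] LieRing.ofAssociativeRing

/-! ### naturality of the differentials -/

section nat

variable {R W R' W' : Type} [Ring R] [AddCommGroup W] [Module R W] [Ring R'] [AddCommGroup W']
  [Module R' W'] (t : Fin 4 → W →ₗ[R] W) (t' : Fin 4 → W' →ₗ[R'] W') (f : W →+ W')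
  (h : ∀ a w, f (t a w) = t' a (f w))

include h

theorem D1_nat (y : Fin 4 → W) : D1 t' (fun i => f (y i)) = f (D1 t y) := by
  simp only [D1_apply, map_add, h]

theorem D2_nat (y : Fin 6 → W) : D2 t' (fun i => f (y i)) = fun i => f (D2 t y i) := by
  funext i
  fin_cases i <;> simp [D2_apply, h]

theorem D3_nat (y : Fin 4 → W) : D3 t' (fun i => f (y i)) = fun i => f (D3 t y i) := by
  funext i
  fin_cases i <;> simp [D3_apply, h]

theorem D4_nat (y : W) : D4 t' (f y) = fun i => f (D4 t y i) := by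
  funext i
  fin_cases i <;> simp [D4_apply, h]

end nat

/-! ### general facts about `Vec` and `tw` -/

theorem mem_Vec {Y ι : Type} [AddCommGroup Y] [Module ℂ Y] (F : ℤ → Submodule ℂ Y) (m : ℤ)
    (v : ι → Y) : v ∈ Vec ι F m ↔ ∀ k, v k ∈ F m := Iff.rfl

section mem

variable {W : Type} [AddCommGroup W] [Module ℂ W] (G : ℤ → Submodule ℂ W)
  (t : Fin 4 → W →ₗ[ℂ] W) (hG : ∀ m, G m ≤ G (m + 1)) (ht : ∀ a m w, w ∈ G m → t a w ∈ G (m + 1))

include hG ht

omit hG in
theorem D1_mem (m : ℤ) (y : Fin 4 → W) (hy : ∀ a, y a ∈ G m) : D1 t y ∈ G (m + 1) := by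
  rw [D1_apply]
  exact add_mem (add_mem (add_mem (ht _ _ _ (hy _)) (ht _ _ _ (hy _))) (ht _ _ _ (hy _)))
    (ht _ _ _ (hy _))

theorem D2_mem (m : ℤ) (y : Fin 6 → W) (hy : ∀ a, y a ∈ G m) (i : Fin 4) :
    D2 t y i ∈ G (m + 1) := by
  have h1 : ∀ a k, t a (y k) ∈ G (m + 1) := fun a k => ht _ _ _ (hy k)
  have h2 : ∀ k, y k ∈ G (m + 1) := fun k => hG _ (hy k)
  rw [D2_apply]
  fin_cases i <;> simp <;>
    first
      | exact sub_mem (sub_mem (sub_mem (neg_mem (h1 _ _)) (h1 _ _)) (h1 _ _)) (h2 _)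
      | exact sub_mem (sub_mem (sub_mem (sub_mem (h1 _ _) (h2 _)) (h1 _ _)) (h1 _ _)) (h2 _)
      | exact add_mem (sub_mem (add_mem (add_mem (h1 _ _) (h2 _)) (h1 _ _)) (h1 _ _)) (h2 _)
      | exact add_mem (add_mem (add_mem (h1 _ _) (h2 _)) (h1 _ _)) (h1 _ _)

theorem D3_mem (m : ℤ) (y : Fin 4 → W) (hy : ∀ a, y a ∈ G m) (i : Fin 6) :
    D3 t y i ∈ G (m + 1) := by
  have h1 : ∀ a k, t a (y k) ∈ G (m + 1) := fun a k => ht _ _ _ (hy k)
  have h2 : ∀ k, y k ∈ G (m + 1) := fun k => hG _ (hy k)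
  rw [D3_apply]
  fin_cases i <;> simp <;>
    first
      | exact add_mem (add_mem (h1 _ _) (h1 _ _)) (h2 _)
      | exact sub_mem (add_mem (neg_mem (h1 _ _)) (h1 _ _)) (h2 _)
      | exact sub_mem (sub_mem (sub_mem (neg_mem (h2 _)) (h1 _ _)) (h1 _ _)) (h2 _)
      | exact add_mem (h1 _ _) (h1 _ _)
      | exact sub_mem (sub_mem (h1 _ _) (h2 _)) (h1 _ _)
      | exact add_mem (add_mem (h1 _ _) (h2 _)) (h1 _ _)

omit hG in
theorem D4_mem (m : ℤ) (y : W) (hy : y ∈ G m) (i : Fin 4) :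
    D4 t y i ∈ G (m + 1) := by
  have h1 : ∀ a, t a y ∈ G (m + 1) := fun a => ht _ _ _ hy
  rw [D4_apply]
  fin_cases i <;> simp <;> exact h1 _

end mem

section main

variable {M M' : Type} [AddCommGroup M] [Module ℂ M] [AddCommGroup M'] [Module ℂ M']
  (D : Datum M M') {ι : Type} [Fintype ι] [DecidableEq ι] (b : Module.Basis ι ℂ M)

theorem tU_apply (a : Fin 4) (w : ι → U) (l : ι) :
    tU D b a w l = w l * e a - ∑ k, Amat D b a l k • w k := rfl

theorem tV_apply (a : Fin 4) (w : ι → Fin 2 → U) (l : ι) :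
    tV D b a w l = ract (e a) (w l) - ∑ k, Amat D b a l k • w k := rfl

theorem tV_apply' (a : Fin 4) (w : ι → Fin 2 → U) (l : ι) (i : Fin 2) :
    tV D b a w l i = w l i * e a - ∑ k, Amat D b a l k • w k i := by
  rw [tV_apply, Pi.sub_apply, ract_apply, Finset.sum_apply]
  rfl

theorem tN_apply (a : Fin 4) (w : ι → NN) (l : ι) :
    tN D b a w l = rN (e a) (w l) - ∑ k, Amat D b a l k • w k := rfl

theorem tUU_apply (a : Fin 4) (w : ι → UU) (l : ι) :
    tUU D b a w l = w l * TrivSqZeroExt.inl (e a) - ∑ k, Amat D b a l k • w k := rfl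

/-- `fst` componentwise -/
noncomputable def vfst : (ι → UU) →+ (ι → U) where
  toFun w := fun l => (w l).fst
  map_zero' := rfl
  map_add' _ _ := rfl

/-- `snd` componentwise -/
noncomputable def vsnd : (ι → UU) →+ (ι → NN) where
  toFun w := fun l => (w l).snd
  map_zero' := rfl
  map_add' _ _ := rfl

/-- the projection `V* ⊗ U ⊗ M → N ⊗ M` -/
noncomputable def vmk : (ι → Fin 2 → U) →+ (ι → NN) where
  toFun w := fun l => mkN (w l)
  map_zero' := by funext l; simp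
  map_add' v w := by funext l; simp

/-- `c` componentwise -/
noncomputable def vc : (ι → Fin 2 → U) →+ (ι → Fin 2 → U) where
  toFun w := fun l => cmap (w l)
  map_zero' := by funext l; simp
  map_add' v w := by funext l; simp

theorem vfst_apply (w : ι → UU) (l : ι) : vfst w l = (w l).fst := rfl
theorem vsnd_apply (w : ι → UU) (l : ι) : vsnd w l = (w l).snd := rfl
theorem vmk_apply (w : ι → Fin 2 → U) (l : ι) : vmk w l = mkN (w l) := rfl
theorem vc_apply (w : ι → Fin 2 → U) (l : ι) : vc w l = cmap (w l) := rfl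

theorem vfst_t (a : Fin 4) (w : ι → UU) : vfst (tUU D b a w) = tU D b a (vfst w) := by
  funext l
  rw [vfst_apply, tUU_apply, tU_apply, TrivSqZeroExt.fst_sub, TrivSqZeroExt.fst_mul,
    TrivSqZeroExt.fst_inl, TrivSqZeroExt.fst_sum]
  rfl

theorem vsnd_t (a : Fin 4) (w : ι → UU) : vsnd (tUU D b a w) = tN D b a (vsnd w) := by
  funext l
  rw [vsnd_apply, tUU_apply, tN_apply, TrivSqZeroExt.snd_sub, TrivSqZeroExt.snd_mul,
    TrivSqZeroExt.snd_inl, TrivSqZeroExt.fst_inl, TrivSqZeroExt.snd_sum, smul_zero, zero_add]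
  rfl

theorem vmk_t (a : Fin 4) (w : ι → Fin 2 → U) : vmk (tV D b a w) = tN D b a (vmk w) := by
  funext l
  rw [vmk_apply, tV_apply, tN_apply, map_sub, map_sum]
  simp only [map_smul]
  rfl

theorem vc_t (a : Fin 4) (w : ι → Fin 2 → U) : vc (tV D b a w) = tV D b a (vc w) := by
  funext l
  rw [vc_apply, tV_apply, tV_apply, map_sub, map_sum, cmap_ract]
  simp only [map_smul]
  rfl

theorem tU_mem (a : Fin 4) (m : ℤ) (w : ι → U) (hw : w ∈ Vec ι FU m) :
    tU D b a w ∈ Vec ι FU (m + 1) := by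
  intro l
  rw [tU_apply]
  exact sub_mem (FU_mul _ _ _ _ (hw l) (e_mem_FU a))
    (Submodule.sum_mem _ fun k _ => Submodule.smul_mem _ _ (FU_mono _ _ (by omega) (hw k)))

theorem tV_mem (a : Fin 4) (m : ℤ) (w : ι → Fin 2 → U) (hw : w ∈ Vec ι FV m) :
    tV D b a w ∈ Vec ι FV (m + 1) := by
  intro l
  rw [tV_apply]
  exact sub_mem (ract_mem _ _ (e_mem_FU a) _ _ (hw l))
    (Submodule.sum_mem _ fun k _ => Submodule.smul_mem _ _ (FV_mono _ _ (by omega) (hw k)))

theorem Vec_mono {Y : Type} [AddCommGroup Y] [Module ℂ Y] (F : ℤ → Submodule ℂ Y)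
    (hF : ∀ m n, m ≤ n → F m ≤ F n) (m n : ℤ) (h : m ≤ n) : Vec ι F m ≤ Vec ι F n :=
  fun _ hv k => hF _ _ h (hv k)

theorem vmk_surj (n : ι → NN) : ∃ v : ι → Fin 2 → U, vmk v = n := by
  choose v hv using fun l => mkN_surj (n l)
  exact ⟨v, funext hv⟩

theorem vmk_lift (m : ℤ) (n : ι → NN) (hn : n ∈ Vec ι FN m) :
    ∃ v ∈ Vec ι FV (m + 1), vmk v = n := by
  choose v hv hv' using fun l => (mem_FN _ _).1 (hn l)
  exact ⟨v, hv, funext hv'⟩

theorem vmk_mem (m : ℤ) (v : ι → Fin 2 → U) (hv : v ∈ Vec ι FV (m + 1)) : vmk v ∈ Vec ι FN m :=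
  fun l => (mem_FN _ _).2 ⟨_, hv l, rfl⟩

theorem vmk_eq_zero (v : ι → Fin 2 → U) : vmk v = 0 ↔ ∃ w, vc w = v := by
  constructor
  · intro h
    choose w hw using fun l => (mkN_eq_zero _).1 (congrFun h l)
    exact ⟨w, funext hw⟩
  · rintro ⟨w, rfl⟩
    funext l
    exact mkN_cmap _

theorem cmap_mem (m : ℤ) (v : Fin 2 → U) (hv : v ∈ FV m) : cmap v ∈ FV (m + 1) := by
  have h : ∀ a k, e a * v k ∈ FU (m + 1) := fun a k => by
    rw [add_comm]; exact FU_mul _ _ _ _ (e_mem_FU a) (hv k)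
  have h2 : ∀ k, v k ∈ FU (m + 1) := fun k => FU_mono _ _ (by omega) (hv k)
  intro k
  fin_cases k
  · change cmap v 0 ∈ _
    rw [cmap_zero']
    exact sub_mem (add_mem (h _ _) (h2 _)) (h _ _)
  · change cmap v 1 ∈ _
    rw [cmap_one']
    exact add_mem (add_mem (neg_mem (h _ _)) (h _ _)) (h2 _)

theorem vc_mem (m : ℤ) (v : ι → Fin 2 → U) (hv : v ∈ Vec ι FV m) : vc v ∈ Vec ι FV (m + 1) :=
  fun l => cmap_mem _ _ (hv l)

end main

/-! ### exactness for `N` -/

section NEx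

variable {M M' : Type} [AddCommGroup M] [Module ℂ M] [AddCommGroup M'] [Module ℂ M']
  (D : Datum M M') {ι : Type} [Fintype ι] [DecidableEq ι] (b : Module.Basis ι ℂ M)

theorem cmap_inj (hc : ∀ (m : ℤ) (v : Fin 2 → U), cmap v ∈ FV (m + 1) → v ∈ FV m)
    (v : Fin 2 → U) (h : cmap v = 0) : v = 0 := by
  have : v ∈ FV (-1) := hc _ _ (by rw [h]; exact zero_mem _)
  rw [FV_neg _ (by norm_num)] at this
  exact this

theorem vc_inj (hc : ∀ (m : ℤ) (v : Fin 2 → U), cmap v ∈ FV (m + 1) → v ∈ FV m)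
    (v : ι → Fin 2 → U) (h : vc v = 0) : v = 0 := by
  funext l
  exact cmap_inj hc _ (congrFun h l)

theorem vc_strict (hc : ∀ (m : ℤ) (v : Fin 2 → U), cmap v ∈ FV (m + 1) → v ∈ FV m)
    (m : ℤ) (v : ι → Fin 2 → U) (h : vc v ∈ Vec ι FV (m + 1)) : v ∈ Vec ι FV m :=
  fun l => hc _ _ (h l)

variable (hV : FilExact (Vec ι FV) (tV D b))
  (hc : ∀ (m : ℤ) (v : Fin 2 → U), cmap v ∈ FV (m + 1) → v ∈ FV m)

theorem VecFV_mono1 (m : ℤ) : Vec ι FV m ≤ Vec ι FV (m + 1) := Vec_mono FV FV_mono _ _ (by omega)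

include hV hc

theorem N4 (j : ℤ) (y : ι → NN) (hy : y ∈ Vec ι FN j) (h : D4 (tN D b) y = 0) : y = 0 := by
  obtain ⟨v, hv, rfl⟩ := vmk_lift _ _ hy
  rw [D4_nat (tV D b) (tN D b) vmk (vmk_t D b)] at h
  have h1 : ∀ i, ∃ w, vc w = D4 (tV D b) v i := fun i => (vmk_eq_zero _).1 (congrFun h i)
  choose w hw using h1
  have hw' : ∀ i, w i ∈ Vec ι FV (j + 1) := fun i => by
    apply vc_strict hc
    rw [hw]
    exact D4_mem (Vec ι FV) (tV D b) (fun a m w hw => tV_mem D b a m w hw) _ _ hv i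
  have hww : (fun i => vc (w i)) = D4 (tV D b) v := funext hw
  have h2 : D3 (tV D b) w = 0 := by
    funext k
    apply vc_inj hc
    have := congrFun (D3_nat (tV D b) (tV D b) vc (vc_t D b) w) k
    rw [← this, hww, D3_D4 (tV_anti D b)]
    rfl
  obtain ⟨x, hx, hx'⟩ := hV.k3 _ w hw' h2
  rw [show j + 1 - 1 = j by ring] at hx
  have h3 : D4 (tV D b) (v - vc x) = 0 := by
    rw [map_sub, D4_nat (tV D b) (tV D b) vc (vc_t D b), hx', hww, sub_self]
  have h4 := hV.k4 (j + 1) _ (sub_mem hv (vc_mem _ _ hx)) h3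
  rw [sub_eq_zero] at h4
  rw [h4]
  exact (vmk_eq_zero _).2 ⟨x, rfl⟩

theorem N3 (j : ℤ) (y : Fin 4 → ι → NN) (hy : ∀ a, y a ∈ Vec ι FN j) (h : D3 (tN D b) y = 0) :
    ∃ x, x ∈ Vec ι FN (j - 1) ∧ D4 (tN D b) x = y := by
  choose v hv hvy using fun a => vmk_lift _ _ (hy a)
  have hvy' : (fun a => vmk (v a)) = y := funext hvy
  subst hvy'
  rw [D3_nat (tV D b) (tN D b) vmk (vmk_t D b)] at h
  have h1 : ∀ i, ∃ w, vc w = D3 (tV D b) v i := fun i => (vmk_eq_zero _).1 (congrFun h i)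
  choose w hw using h1
  have hw' : ∀ i, w i ∈ Vec ι FV (j + 1) := fun i => by
    apply vc_strict hc
    rw [hw]
    exact D3_mem (Vec ι FV) (tV D b) VecFV_mono1 (fun a m w hw => tV_mem D b a m w hw) _ _ hv i
  have hww : (fun i => vc (w i)) = D3 (tV D b) v := funext hw
  have h2 : D2 (tV D b) w = 0 := by
    funext k
    apply vc_inj hc
    have := congrFun (D2_nat (tV D b) (tV D b) vc (vc_t D b) w) k
    rw [← this, hww, D2_D3 (tV_anti D b)]
    rfl
  obtain ⟨x, hx, hx'⟩ := hV.k2 _ w hw' h2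
  rw [show j + 1 - 1 = j by ring] at hx
  have h3 : D3 (tV D b) (v - fun i => vc (x i)) = 0 := by
    rw [map_sub, D3_nat (tV D b) (tV D b) vc (vc_t D b), hx', hww, sub_self]
  obtain ⟨z, hz, hz'⟩ := hV.k3 (j + 1) _ (fun a => sub_mem (hv a) (vc_mem _ _ (hx a))) h3
  refine ⟨vmk z, ?_, ?_⟩
  · apply vmk_mem
    rwa [show j + 1 - 1 = j - 1 + 1 by ring] at hz
  · rw [D4_nat (tV D b) (tN D b) vmk (vmk_t D b), hz']
    funext i
    change vmk (v i - vc (x i)) = vmk (v i)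
    rw [map_sub]
    have : vmk (vc (x i)) = 0 := (vmk_eq_zero _).2 ⟨_, rfl⟩
    rw [this, sub_zero]

theorem N2 (j : ℤ) (y : Fin 6 → ι → NN) (hy : ∀ a, y a ∈ Vec ι FN j) (h : D2 (tN D b) y = 0) :
    ∃ x : Fin 4 → ι → NN, (∀ a, x a ∈ Vec ι FN (j - 1)) ∧ D3 (tN D b) x = y := by
  choose v hv hvy using fun a => vmk_lift _ _ (hy a)
  have hvy' : (fun a => vmk (v a)) = y := funext hvy
  subst hvy'
  rw [D2_nat (tV D b) (tN D b) vmk (vmk_t D b)] at h
  have h1 : ∀ i, ∃ w, vc w = D2 (tV D b) v i := fun i => (vmk_eq_zero _).1 (congrFun h i)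
  choose w hw using h1
  have hw' : ∀ i, w i ∈ Vec ι FV (j + 1) := fun i => by
    apply vc_strict hc
    rw [hw]
    exact D2_mem (Vec ι FV) (tV D b) VecFV_mono1 (fun a m w hw => tV_mem D b a m w hw) _ _ hv i
  have hww : (fun i => vc (w i)) = D2 (tV D b) v := funext hw
  have h2 : D1 (tV D b) w = 0 := by
    apply vc_inj hc
    have := D1_nat (tV D b) (tV D b) vc (vc_t D b) w
    rw [← this, hww, D1_D2 (tV_anti D b)]
  obtain ⟨x, hx, hx'⟩ := hV.k1 _ w hw' h2
  rw [show j + 1 - 1 = j by ring] at hx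
  have h3 : D2 (tV D b) (v - fun i => vc (x i)) = 0 := by
    rw [map_sub, D2_nat (tV D b) (tV D b) vc (vc_t D b), hx', hww, sub_self]
  obtain ⟨z, hz, hz'⟩ := hV.k2 (j + 1) _ (fun a => sub_mem (hv a) (vc_mem _ _ (hx a))) h3
  refine ⟨fun i => vmk (z i), fun a => ?_, ?_⟩
  · apply vmk_mem
    have := hz a
    rwa [show j + 1 - 1 = j - 1 + 1 by ring] at this
  · rw [D3_nat (tV D b) (tN D b) vmk (vmk_t D b), hz']
    funext i
    change vmk (v i - vc (x i)) = vmk (v i)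
    rw [map_sub]
    have : vmk (vc (x i)) = 0 := (vmk_eq_zero _).2 ⟨_, rfl⟩
    rw [this, sub_zero]

end NEx

/-! ### augmentations -/

section Eps

variable {M M' : Type} [AddCommGroup M] [Module ℂ M] [AddCommGroup M'] [Module ℂ M']
  (D : Datum M M') {ι : Type} [Fintype ι] [DecidableEq ι] (b : Module.Basis ι ℂ M)

/-- `U ⊗ M → M` -/
noncomputable def epsU : (ι → U) →ₗ[ℂ] M where
  toFun w := ∑ l, D.a (w l) (b l)
  map_add' v w := by simp [Finset.sum_add_distrib]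
  map_smul' c v := by simp [Finset.smul_sum]

/-- `V* ⊗ U ⊗ M → V* ⊗ M` -/
noncomputable def epsV : (ι → Fin 2 → U) →ₗ[ℂ] (Fin 2 → M) where
  toFun v := fun k => ∑ l, D.a (v l k) (b l)
  map_add' v w := by funext k; simp [Finset.sum_add_distrib]
  map_smul' c v := by funext k; simp [Finset.smul_sum]

/-- `N ⊗ M → M'` -/
noncomputable def epsN : (ι → NN) →ₗ[ℂ] M' where
  toFun n := ∑ l, pN D (n l) (b l)
  map_add' v w := by simp [Finset.sum_add_distrib]
  map_smul' c v := by simp [Finset.smul_sum]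

theorem epsU_apply (w : ι → U) : epsU D b w = ∑ l, D.a (w l) (b l) := rfl
theorem epsV_apply (v : ι → Fin 2 → U) (k : Fin 2) : epsV D b v k = ∑ l, D.a (v l k) (b l) := rfl
theorem epsN_apply (n : ι → NN) : epsN D b n = ∑ l, pN D (n l) (b l) := rfl

theorem epsV_eq (v : ι → Fin 2 → U) (k : Fin 2) : epsV D b v k = epsU D b (fun l => v l k) := rfl

theorem Amat_sum (a : Fin 4) (k : ι) : ∑ l, Amat D b a l k • b l = D.a (e a) (b k) := by
  have h := b.sum_repr (D.a (e a) (b k))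
  conv_rhs => rw [← h]
  refine Finset.sum_congr rfl fun l _ => ?_
  rw [Amat, LinearMap.toMatrix_apply]

theorem epsU_t (a : Fin 4) (w : ι → U) : epsU D b (tU D b a w) = 0 := by
  rw [epsU_apply]
  simp only [tU_apply, map_sub, map_mul, map_sum, map_smul, LinearMap.sub_apply,
    Module.End.mul_apply, Finset.sum_sub_distrib, LinearMap.sum_apply, LinearMap.smul_apply]
  rw [Finset.sum_comm, sub_eq_zero]
  refine Finset.sum_congr rfl fun k _ => ?_
  rw [← Amat_sum, map_sum]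
  simp only [map_smul]

theorem epsV_t (a : Fin 4) (w : ι → Fin 2 → U) : epsV D b (tV D b a w) = 0 := by
  funext k
  rw [epsV_eq]
  have : (fun l => tV D b a w l k) = tU D b a (fun l => w l k) := by
    funext l
    rw [tV_apply', tU_apply]
  rw [this, epsU_t]
  rfl

theorem epsU_D1 (y : Fin 4 → ι → U) : epsU D b (D1 (tU D b) y) = 0 := by
  rw [D1_apply]; simp only [map_add, epsU_t, add_zero]

theorem epsV_D1 (y : Fin 4 → ι → Fin 2 → U) : epsV D b (D1 (tV D b) y) = 0 := by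
  rw [D1_apply]; simp only [map_add, epsV_t, add_zero]

/-- the divergence -/
noncomputable def dv (m : Fin 2 → M) : M' := ∑ k, D.d k (m k)

/-- `c` on `V* ⊗ M` -/
noncomputable def cM (m : Fin 2 → M) : Fin 2 → M :=
  ![D.a (e 3) (m 0) + m 0 - D.a (e 1) (m 1), - D.a (e 2) (m 0) + D.a (e 0) (m 1) + m 1]

theorem cM_eq (m : Fin 2 → M) : cM D m = fun k => D.ν • m k - D.x k (dv D m) := by
  funext k
  fin_cases k
  · exact D.c_zero m
  · exact D.c_one m

theorem dv_x (m' : M') : dv D (fun k => D.x k m') = D.ν • m' := D.hdx m'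

theorem dv_smul (c : ℂ) (m : Fin 2 → M) : dv D (fun k => c • m k) = c • dv D m := by
  simp [dv]

theorem epsN_mk (v : ι → Fin 2 → U) : epsN D b (vmk v) = dv D (epsV D b v) := by
  rw [epsN_apply, dv]
  simp only [epsV_apply, map_sum, vmk_apply, pN_mk, pV_apply]
  rw [Finset.sum_comm]

theorem epsV_c (v : ι → Fin 2 → U) : epsV D b (vc v) = cM D (epsV D b v) := by
  funext k
  fin_cases k
  · change ∑ l, D.a (cmap (v l) 0) (b l) = D.a (e 3) (epsV D b v 0) + epsV D b v 0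
      - D.a (e 1) (epsV D b v 1)
    simp only [cmap_zero', epsV_apply, map_add, map_sub, map_mul, map_sum, LinearMap.add_apply,
      LinearMap.sub_apply, Module.End.mul_apply, Finset.sum_add_distrib, Finset.sum_sub_distrib]
  · change ∑ l, D.a (cmap (v l) 1) (b l) = - D.a (e 2) (epsV D b v 0) + D.a (e 0) (epsV D b v 1)
      + epsV D b v 1
    simp only [cmap_one', epsV_apply, map_add, map_neg, map_mul, map_sum, LinearMap.add_apply,
      LinearMap.neg_apply, Module.End.mul_apply, Finset.sum_add_distrib, Finset.sum_neg_distrib]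

/-- section of `epsU` -/
noncomputable def sU (m : M) : ι → U := fun l => algebraMap ℂ U (b.repr m l)

/-- section of `epsV` -/
noncomputable def sV (m : Fin 2 → M) : ι → Fin 2 → U := fun l k => algebraMap ℂ U (b.repr (m k) l)

theorem epsU_sU (m : M) : epsU D b (sU b m) = m := by
  rw [epsU_apply]
  have h := b.sum_repr m
  conv_rhs => rw [← h]
  refine Finset.sum_congr rfl fun l _ => ?_
  rw [sU, AlgHom.commutes, Module.algebraMap_end_apply]

theorem epsV_sV (m : Fin 2 → M) : epsV D b (sV b m) = m := by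
  funext k
  rw [epsV_eq]
  exact epsU_sU D b (m k)

theorem sU_mem (m : M) : sU b m ∈ Vec ι FU 0 := fun _ => algebraMap_mem_FU _
theorem sV_mem (m : Fin 2 → M) : sV b m ∈ Vec ι FV 0 := fun _ _ => algebraMap_mem_FU _

theorem epsU_zero (u : ι → U) (hu : u ∈ Vec ι FU 0) (h : epsU D b u = 0) : u = 0 := by
  choose c hc using fun l => mem_FU_zero _ (hu l)
  have h1 : ∑ l, c l • b l = 0 := by
    rw [← h, epsU_apply]
    refine Finset.sum_congr rfl fun l _ => ?_
    rw [hc, AlgHom.commutes, Module.algebraMap_end_apply]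
  have h2 := (Fintype.linearIndependent_iff.1 b.linearIndependent) c h1
  funext l
  rw [hc, h2, map_zero]
  rfl

theorem epsV_zero (u : ι → Fin 2 → U) (hu : u ∈ Vec ι FV 0) (h : epsV D b u = 0) : u = 0 := by
  funext l k
  have := epsU_zero D b (fun l => u l k) (fun l => hu l k) (by rw [← epsV_eq, h]; rfl)
  exact congrFun this l

theorem U0 (hU : FilExact (Vec ι FU) (tU D b)) (j : ℤ) (w : ι → U) (hw : w ∈ Vec ι FU j)
    (h : epsU D b w = 0) :
    ∃ x : Fin 4 → ι → U, (∀ a, x a ∈ Vec ι FU (j - 1)) ∧ D1 (tU D b) x = w := by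
  obtain ⟨x, hx, hx'⟩ := hU.k0 j w hw
  refine ⟨x, hx, ?_⟩
  have := epsU_zero D b _ hx' (by rw [map_sub, h, epsU_D1, sub_zero])
  rw [sub_eq_zero] at this
  exact this.symm

theorem V0 (hV : FilExact (Vec ι FV) (tV D b)) (j : ℤ) (w : ι → Fin 2 → U) (hw : w ∈ Vec ι FV j)
    (h : epsV D b w = 0) :
    ∃ x : Fin 4 → ι → Fin 2 → U, (∀ a, x a ∈ Vec ι FV (j - 1)) ∧ D1 (tV D b) x = w := by
  obtain ⟨x, hx, hx'⟩ := hV.k0 j w hw
  refine ⟨x, hx, ?_⟩
  have := epsV_zero D b _ hx' (by rw [map_sub, h, epsV_D1, sub_zero])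
  rw [sub_eq_zero] at this
  exact this.symm

theorem epsE_eq (w : ι → UU) :
    @Eq (M × M') (epsE D b w) (epsU D b (vfst w), epsN D b (vsnd w)) := by
  have h : @Eq (M × M') (epsE D b w) (∑ l, (actE D (w l) ((b l, 0) : M × M'))) := rfl
  refine h.trans ?_
  simp only [actE_apply, map_zero, zero_add]
  rw [Prod.ext_iff, Prod.fst_sum, Prod.snd_sum]
  exact ⟨rfl, rfl⟩

end Eps

/-! ### exactness for `UU`, except for the class map -/

section UUk

variable {M M' : Type} [AddCommGroup M] [Module ℂ M] [AddCommGroup M'] [Module ℂ M']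
  (D : Datum M M') {ι : Type} [Fintype ι] [DecidableEq ι] (b : Module.Basis ι ℂ M)

/-- pairing the two components -/
noncomputable def vpair (u : ι → U) (n : ι → NN) : ι → UU := fun l =>
  TrivSqZeroExt.inl (u l) + TrivSqZeroExt.inr (n l)

theorem vfst_pair (u : ι → U) (n : ι → NN) : vfst (vpair u n) = u := by
  funext l; simp [vfst_apply, vpair]

theorem vsnd_pair (u : ι → U) (n : ι → NN) : vsnd (vpair u n) = n := by
  funext l; simp [vsnd_apply, vpair]

theorem vext {v w : ι → UU} (h1 : vfst v = vfst w) (h2 : vsnd v = vsnd w) : v = w := by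
  funext l
  exact TrivSqZeroExt.ext (congrFun h1 l) (congrFun h2 l)

theorem mem_Vec_Fil (j : ℤ) (v : ι → UU) :
    v ∈ Vec ι Fil j ↔ vfst v ∈ Vec ι FU j ∧ vsnd v ∈ Vec ι FN j :=
  ⟨fun h => ⟨fun l => (h l).1, fun l => (h l).2⟩, fun h l => ⟨h.1 l, h.2 l⟩⟩

theorem D1_comp (y : Fin 4 → ι → UU) :
    vfst (D1 (tUU D b) y) = D1 (tU D b) (fun i => vfst (y i)) ∧
    vsnd (D1 (tUU D b) y) = D1 (tN D b) (fun i => vsnd (y i)) :=
  ⟨(D1_nat (tUU D b) (tU D b) vfst (vfst_t D b) y).symm,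
    (D1_nat (tUU D b) (tN D b) vsnd (vsnd_t D b) y).symm⟩

theorem D2_comp (y : Fin 6 → ι → UU) (i : Fin 4) :
    vfst (D2 (tUU D b) y i) = D2 (tU D b) (fun i => vfst (y i)) i ∧
    vsnd (D2 (tUU D b) y i) = D2 (tN D b) (fun i => vsnd (y i)) i :=
  ⟨(congrFun (D2_nat (tUU D b) (tU D b) vfst (vfst_t D b) y) i).symm,
    (congrFun (D2_nat (tUU D b) (tN D b) vsnd (vsnd_t D b) y) i).symm⟩

theorem D3_comp (y : Fin 4 → ι → UU) (i : Fin 6) :
    vfst (D3 (tUU D b) y i) = D3 (tU D b) (fun i => vfst (y i)) i ∧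
    vsnd (D3 (tUU D b) y i) = D3 (tN D b) (fun i => vsnd (y i)) i :=
  ⟨(congrFun (D3_nat (tUU D b) (tU D b) vfst (vfst_t D b) y) i).symm,
    (congrFun (D3_nat (tUU D b) (tN D b) vsnd (vsnd_t D b) y) i).symm⟩

theorem D4_comp (y : ι → UU) (i : Fin 4) :
    vfst (D4 (tUU D b) y i) = D4 (tU D b) (vfst y) i ∧
    vsnd (D4 (tUU D b) y i) = D4 (tN D b) (vsnd y) i :=
  ⟨(congrFun (D4_nat (tUU D b) (tU D b) vfst (vfst_t D b) y) i).symm,
    (congrFun (D4_nat (tUU D b) (tN D b) vsnd (vsnd_t D b) y) i).symm⟩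

variable (hU : FilExact (Vec ι FU) (tU D b)) (hV : FilExact (Vec ι FV) (tV D b))
  (hc : ∀ (m : ℤ) (v : Fin 2 → U), cmap v ∈ FV (m + 1) → v ∈ FV m)

include hU hV hc

theorem UU4 (j : ℤ) (y : ι → UU) (hy : y ∈ Vec ι Fil j) (h : D4 (tUU D b) y = 0) : y = 0 := by
  rw [mem_Vec_Fil] at hy
  have h1 : D4 (tU D b) (vfst y) = 0 := by
    funext i; rw [← (D4_comp D b y i).1, h]; rfl
  have h2 : D4 (tN D b) (vsnd y) = 0 := by
    funext i; rw [← (D4_comp D b y i).2, h]; rfl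
  exact vext ((hU.k4 _ _ hy.1 h1).trans (map_zero vfst).symm)
    ((N4 D b hV hc _ _ hy.2 h2).trans (map_zero vsnd).symm)

theorem UU3 (j : ℤ) (y : Fin 4 → ι → UU) (hy : ∀ a, y a ∈ Vec ι Fil j)
    (h : D3 (tUU D b) y = 0) : ∃ x, x ∈ Vec ι Fil (j - 1) ∧ D4 (tUU D b) x = y := by
  have h1 : D3 (tU D b) (fun i => vfst (y i)) = 0 := by
    funext i; rw [← (D3_comp D b y i).1, h]; rfl
  have h2 : D3 (tN D b) (fun i => vsnd (y i)) = 0 := by
    funext i; rw [← (D3_comp D b y i).2, h]; rfl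
  obtain ⟨u, hu, hu'⟩ := hU.k3 _ _ (fun a => ((mem_Vec_Fil _ _).1 (hy a)).1) h1
  obtain ⟨n, hn, hn'⟩ := N3 D b hV hc _ _ (fun a => ((mem_Vec_Fil _ _).1 (hy a)).2) h2
  refine ⟨vpair u n, ?_, ?_⟩
  · rw [mem_Vec_Fil, vfst_pair, vsnd_pair]; exact ⟨hu, hn⟩
  · funext i
    refine vext ?_ ?_
    · rw [(D4_comp D b _ i).1, vfst_pair, hu']
    · rw [(D4_comp D b _ i).2, vsnd_pair, hn']

theorem UU2 (j : ℤ) (y : Fin 6 → ι → UU) (hy : ∀ a, y a ∈ Vec ι Fil j)
    (h : D2 (tUU D b) y = 0) :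
    ∃ x : Fin 4 → ι → UU, (∀ a, x a ∈ Vec ι Fil (j - 1)) ∧ D3 (tUU D b) x = y := by
  have h1 : D2 (tU D b) (fun i => vfst (y i)) = 0 := by
    funext i; rw [← (D2_comp D b y i).1, h]; rfl
  have h2 : D2 (tN D b) (fun i => vsnd (y i)) = 0 := by
    funext i; rw [← (D2_comp D b y i).2, h]; rfl
  obtain ⟨u, hu, hu'⟩ := hU.k2 _ _ (fun a => ((mem_Vec_Fil _ _).1 (hy a)).1) h1
  obtain ⟨n, hn, hn'⟩ := N2 D b hV hc _ _ (fun a => ((mem_Vec_Fil _ _).1 (hy a)).2) h2
  refine ⟨fun a => vpair (u a) (n a), fun a => ?_, ?_⟩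
  · rw [mem_Vec_Fil, vfst_pair, vsnd_pair]; exact ⟨hu a, hn a⟩
  · funext i
    refine vext ?_ ?_
    · rw [(D3_comp D b _ i).1]; simp only [vfst_pair]; rw [hu']
    · rw [(D3_comp D b _ i).2]; simp only [vsnd_pair]; rw [hn']

omit hU hV hc in
theorem epsN_D1 (y : Fin 4 → ι → NN) : epsN D b (D1 (tN D b) y) = 0 := by
  choose v hv using fun a => vmk_surj (y a)
  have : y = fun a => vmk (v a) := (funext hv).symm
  rw [this, D1_nat (tV D b) (tN D b) vmk (vmk_t D b), epsN_mk, epsV_D1]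
  simp [dv]

omit hU hV hc in
theorem epsE_D1 (y : Fin 4 → ι → UU) : epsE D b (D1 (tUU D b) y) = 0 := by
  refine (epsE_eq D b _).trans ?_
  rw [(D1_comp D b y).1, (D1_comp D b y).2, epsU_D1, epsN_D1]
  rfl

omit hU in
theorem Nker (j : ℤ) (hj : 0 ≤ j) (y : ι → NN) (hy : y ∈ Vec ι FN j) (h : epsN D b y = 0) :
    ∃ x : Fin 4 → ι → NN, (∀ a, x a ∈ Vec ι FN (j - 1)) ∧ D1 (tN D b) x = y := by
  obtain ⟨v, hv, rfl⟩ := vmk_lift _ _ hy
  rw [epsN_mk] at h
  set m : Fin 2 → M := fun k => D.ν⁻¹ • epsV D b v k with hm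
  have h1 : cM D m = epsV D b v := by
    rw [cM_eq]
    have : dv D m = 0 := by rw [hm, dv_smul, h, smul_zero]
    funext k
    rw [this, map_zero, sub_zero, hm]
    simp only [smul_smul, mul_inv_cancel₀ D.hν, one_smul]
  have h2 : v - vc (sV b m) ∈ Vec ι FV (j + 1) :=
    sub_mem hv (Vec_mono FV FV_mono _ _ (by omega) (vc_mem 0 _ (sV_mem b m)))
  have h3 : epsV D b (v - vc (sV b m)) = 0 := by
    rw [map_sub, epsV_c, epsV_sV, h1, sub_self]
  obtain ⟨x, hx, hx'⟩ := V0 D b hV _ _ h2 h3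
  refine ⟨fun a => vmk (x a), fun a => ?_, ?_⟩
  · apply vmk_mem
    have := hx a
    rwa [show j + 1 - 1 = j - 1 + 1 by ring] at this
  · rw [D1_nat (tV D b) (tN D b) vmk (vmk_t D b), hx', map_sub]
    have : vmk (vc (sV b m)) = 0 := (vmk_eq_zero _).2 ⟨_, rfl⟩
    rw [this, sub_zero]

theorem UU_eps_ker (j : ℤ) (y : ι → UU) (hj : 0 ≤ j) (hy : y ∈ Vec ι Fil j)
    (h : epsE D b y = 0) :
    ∃ x : Fin 4 → ι → UU, (∀ a, x a ∈ Vec ι Fil (j - 1)) ∧ D1 (tUU D b) x = y := by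
  have h0 : @Eq (M × M') (epsU D b (vfst y), epsN D b (vsnd y)) 0 := (epsE_eq D b y).symm.trans h
  have h1 : epsU D b (vfst y) = 0 := congrArg Prod.fst h0
  have h2 : epsN D b (vsnd y) = 0 := congrArg Prod.snd h0
  rw [mem_Vec_Fil] at hy
  obtain ⟨u, hu, hu'⟩ := U0 D b hU _ _ hy.1 h1
  obtain ⟨n, hn, hn'⟩ := Nker D b hV hc _ hj _ hy.2 h2
  refine ⟨fun a => vpair (u a) (n a), fun a => ?_, ?_⟩
  · rw [mem_Vec_Fil, vfst_pair, vsnd_pair]; exact ⟨hu a, hn a⟩
  · refine vext ?_ ?_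
    · rw [(D1_comp D b _).1]; simp only [vfst_pair]; rw [hu']
    · rw [(D1_comp D b _).2]; simp only [vsnd_pair]; rw [hn']

omit hU hV hc in
theorem UU_eps_surj (z : Act (actE D)) : ∃ y ∈ Vec ι Fil 0, epsE D b y = z := by
  let z' : M × M' := z
  refine ⟨vpair (sU b z'.1) (vmk (sV b (fun k => D.x k (D.ν⁻¹ • z'.2)))), ?_, ?_⟩
  · rw [mem_Vec_Fil, vfst_pair, vsnd_pair]
    refine ⟨sU_mem b _, Vec_mono FN FN_mono (-1) 0 (by omega) (vmk_mem _ _ ?_)⟩
    exact sV_mem b _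
  · refine (epsE_eq D b _).trans ?_
    rw [vfst_pair, vsnd_pair, epsU_sU, epsN_mk, epsV_sV, dv_x, smul_smul, mul_inv_cancel₀ D.hν,
      one_smul]
    rfl

end UUk

/-! ### the class map -/

section Cls

variable {M M' : Type} [AddCommGroup M] [Module ℂ M] [AddCommGroup M'] [Module ℂ M']
  (D : Datum M M') {ι : Type} [Fintype ι] [DecidableEq ι] (b : Module.Basis ι ℂ M)

/-- the relation defining the class map -/
def Gam (y : Fin 4 → ι → NN) (m' : M') : Prop :=
  ∃ (v : Fin 4 → ι → Fin 2 → U) (w : ι → Fin 2 → U), (fun a => vmk (v a)) = y ∧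
    D1 (tV D b) v = vc w ∧ epsV D b w = fun k => D.x k m'

theorem Gam_add {y y' : Fin 4 → ι → NN} {m m' : M'} (h : Gam D b y m) (h' : Gam D b y' m') :
    Gam D b (y + y') (m + m') := by
  obtain ⟨v, w, h1, h2, h3⟩ := h
  obtain ⟨v', w', h1', h2', h3'⟩ := h'
  refine ⟨v + v', w + w', ?_, ?_, ?_⟩
  · rw [← h1, ← h1']; funext a; exact map_add vmk _ _
  · rw [map_add, h2, h2', map_add]
  · rw [map_add, h3, h3']; funext k; exact (map_add _ _ _).symm

theorem Gam_neg {y : Fin 4 → ι → NN} {m : M'} (h : Gam D b y m) : Gam D b (-y) (-m) := by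
  obtain ⟨v, w, h1, h2, h3⟩ := h
  refine ⟨-v, -w, ?_, ?_, ?_⟩
  · rw [← h1]; funext a; exact map_neg vmk _
  · rw [map_neg, h2, map_neg]
  · rw [map_neg, h3]; funext k; exact (map_neg _ _).symm

theorem x_inj (m' : M') (h : (fun k => D.x k m') = 0) : m' = 0 := by
  have h1 := dv_x D m'
  rw [h] at h1
  have h2 : dv D (0 : Fin 2 → M) = 0 := by simp [dv]
  rw [h2] at h1
  exact (smul_eq_zero.1 h1.symm).resolve_left D.hν

theorem Gam_zero (hc : ∀ (m : ℤ) (v : Fin 2 → U), cmap v ∈ FV (m + 1) → v ∈ FV m)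
    {m : M'} (h : Gam D b 0 m) : m = 0 := by
  obtain ⟨v, w, h1, h2, h3⟩ := h
  have h4 : ∀ a, ∃ z, vc z = v a := fun a => (vmk_eq_zero _).1 (congrFun h1 a)
  choose z hz using h4
  have hz' : (fun a => vc (z a)) = v := funext hz
  rw [← hz', D1_nat (tV D b) (tV D b) vc (vc_t D b)] at h2
  have h5 : D1 (tV D b) z - w = 0 := vc_inj hc _ (by rw [map_sub, h2, sub_self])
  rw [sub_eq_zero] at h5
  rw [← h5, epsV_D1] at h3
  exact x_inj D m h3.symm

theorem Gam_unique (hc : ∀ (m : ℤ) (v : Fin 2 → U), cmap v ∈ FV (m + 1) → v ∈ FV m)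
    {y : Fin 4 → ι → NN} {m m' : M'} (h : Gam D b y m) (h' : Gam D b y m') : m = m' := by
  have h1 := Gam_add D b h (Gam_neg D b h')
  rw [add_neg_cancel] at h1
  have h2 := Gam_zero D b hc h1
  rwa [← sub_eq_add_neg, sub_eq_zero] at h2

theorem cM_zero (m : Fin 2 → M) (h : cM D m = 0) : m = fun k => D.x k (D.ν⁻¹ • dv D m) := by
  funext k
  have h1 := congrFun (cM_eq D m) k
  rw [h] at h1
  have h2 : D.ν • m k = D.x k (dv D m) := (sub_eq_zero.1 h1.symm)
  rw [map_smul, ← h2, smul_smul, inv_mul_cancel₀ D.hν, one_smul]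

theorem Gam_exists (y : Fin 4 → ι → NN) (h : D1 (tN D b) y = 0) : ∃ m, Gam D b y m := by
  choose v hv using fun a => vmk_surj (y a)
  have hv' : (fun a => vmk (v a)) = y := funext hv
  rw [← hv', D1_nat (tV D b) (tN D b) vmk (vmk_t D b)] at h
  obtain ⟨w, hw⟩ := (vmk_eq_zero _).1 h
  have h1 : cM D (epsV D b w) = 0 := by rw [← epsV_c, hw, epsV_D1]
  exact ⟨_, v, w, hv', hw.symm, cM_zero D _ h1⟩

/-- left multiplication by `u`, componentwise -/
noncomputable def vlU (u : U) : (ι → Fin 2 → U) →+ (ι → Fin 2 → U) where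
  toFun w := fun l => lU u (w l)
  map_zero' := by funext l; simp
  map_add' v w := by funext l; simp

theorem vlU_t (u : U) (a : Fin 4) (w : ι → Fin 2 → U) : vlU u (tV D b a w) = tV D b a (vlU u w) := by
  funext l
  change lU u (tV D b a w l) = tV D b a (fun l => lU u (w l)) l
  rw [tV_apply, tV_apply, map_sub, map_sum, lU_ract]
  simp only [map_smul]

theorem vlU_c (u : U) (w : ι → Fin 2 → U) : vlU u (vc w) = vc (vlU u w) := by
  funext l
  exact (cmap_lU u (w l)).symm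

/-- right multiplication of a fixed `p` by the components -/
noncomputable def vr (p : Fin 2 → U) : (ι → U) →+ (ι → Fin 2 → U) where
  toFun w := fun l => ract (w l) p
  map_zero' := by funext l; exact ract_zero p
  map_add' v w := by funext l; exact ract_add _ _ _

theorem vr_t (p : Fin 2 → U) (a : Fin 4) (w : ι → U) : vr p (tU D b a w) = tV D b a (vr p w) := by
  funext l
  funext i
  change p i * (tU D b a w l) = tV D b a (fun l => ract (w l) p) l i
  rw [tU_apply, tV_apply', mul_sub, Finset.mul_sum, ract_apply, mul_assoc]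
  simp only [ract_apply, mul_smul_comm]

theorem epsV_vlU (u : U) (w : ι → Fin 2 → U) (m' : M') (h : epsV D b w = fun k => D.x k m') :
    epsV D b (vlU u w) = fun k => D.x k (D.a' u m') := by
  induction u using U_induction' generalizing w m' with
  | h1 c =>
    have h1 : vlU (algebraMap ℂ U c) w = c • w := by
      funext l
      change lU (algebraMap ℂ U c) (w l) = c • w l
      simp [Algebra.algebraMap_eq_smul_one]
    rw [h1, map_smul, h]
    funext k
    simp [Algebra.algebraMap_eq_smul_one]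
  | he a =>
    funext k
    rw [epsV_apply]
    have h1 : ∀ l, vlU (e a) w l = lact (eg a) (w l) := fun l => by
      change lU (e a) (w l) = _
      rw [e, lU_ι]
    simp only [h1, lact_eg, map_sub, map_mul, LinearMap.sub_apply, Module.End.mul_apply,
      Finset.sum_sub_distrib]
    rw [← map_sum, ← epsV_apply, h]
    have h2 : ∑ l, (D.a (if k = cl' a then w l (rw' a) else 0)) (b l) =
        if k = cl' a then D.x (rw' a) m' else 0 := by
      split_ifs
      · rw [← epsV_apply, h]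
      · simp
    rw [h2, ← D.hx]
    abel
  | hadd u v hu hv =>
    have h1 : vlU (u + v) w = vlU u w + vlU v w := by
      funext l
      change lU (u + v) (w l) = lU u (w l) + lU v (w l)
      simp
    rw [h1, map_add, hu w m' h, hv w m' h]
    funext k
    simp
  | hmul u v hu hv =>
    have h1 : vlU (u * v) w = vlU u (vlU v w) := by
      funext l
      change lU (u * v) (w l) = lU u (lU v (w l))
      simp
    rw [h1, hu _ _ (hv w m' h)]
    funext k
    simp

theorem Gam_smul (Y : Fin 4 → ι → UU) (hY : D1 (tU D b) (fun a => vfst (Y a)) = 0) (m' : M')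
    (h : Gam D b (fun a => vsnd (Y a)) m') (u : UU) :
    Gam D b (fun a => vsnd (u • Y a)) (D.a' u.fst m') := by
  obtain ⟨v, w, h1, h2, h3⟩ := h
  obtain ⟨p, hp⟩ := mkN_surj u.snd
  refine ⟨(fun a => vlU u.fst (v a)) + fun a => vr p (vfst (Y a)), vlU u.fst w, ?_, ?_, ?_⟩
  · funext a l
    change mkN (lU u.fst (v a l) + ract (Y a l).fst p) = (u * Y a l).snd
    rw [TrivSqZeroExt.snd_mul, map_add]
    congr 1
    · have h5 : mkN (v a l) = (Y a l).snd := congrFun (congrFun h1 a) l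
      rw [smul_def, ← h5]
      rfl
    · rw [op_smul_def, ← hp]
      rfl
  · rw [map_add, D1_nat (tV D b) (tV D b) (vlU u.fst) (vlU_t D b u.fst),
      D1_nat (tU D b) (tV D b) (vr p) (vr_t D b p), hY, map_zero, add_zero, h2, vlU_c]
  · exact epsV_vlU D b _ _ _ h3

end Cls

section Final

variable {M M' : Type} [AddCommGroup M] [Module ℂ M] [AddCommGroup M'] [Module ℂ M']
  (D : Datum M M') {ι : Type} [Fintype ι] [DecidableEq ι] (b : Module.Basis ι ℂ M)
  (hc : ∀ (m : ℤ) (v : Fin 2 → U), cmap v ∈ FV (m + 1) → v ∈ FV m)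

theorem ker_fst (y : LinearMap.ker (D1 (tUU D b))) : D1 (tU D b) (fun a => vfst (y.1 a)) = 0 := by
  rw [← (D1_comp D b y.1).1, LinearMap.mem_ker.1 y.2, map_zero]

theorem ker_snd (y : LinearMap.ker (D1 (tUU D b))) : D1 (tN D b) (fun a => vsnd (y.1 a)) = 0 := by
  rw [← (D1_comp D b y.1).2, LinearMap.mem_ker.1 y.2, map_zero]

/-- value of the class map -/
noncomputable def clsFun (y : LinearMap.ker (D1 (tUU D b))) : M' :=
  (Gam_exists D b _ (ker_snd D b y)).choose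

theorem clsFun_spec (y : LinearMap.ker (D1 (tUU D b))) :
    Gam D b (fun a => vsnd (y.1 a)) (clsFun D b y) := (Gam_exists D b _ (ker_snd D b y)).choose_spec

/-- the class map -/
noncomputable def cls : LinearMap.ker (D1 (tUU D b)) →ₗ[UU] Act (actU D.a') where
  toFun y := (clsFun D b y : M')
  map_add' y z := by
    refine Gam_unique D b hc (clsFun_spec D b (y + z)) ?_
    exact Gam_add D b (clsFun_spec D b y) (clsFun_spec D b z)
  map_smul' u y := by
    refine Gam_unique D b hc (clsFun_spec D b (u • y)) ?_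
    exact Gam_smul D b y.1 (ker_fst D b y) _ (clsFun_spec D b y) u

theorem cls_eq (y : LinearMap.ker (D1 (tUU D b))) (m : M')
    (h : Gam D b (fun a => vsnd (y.1 a)) m) : cls D b hc y = (m : M') :=
  Gam_unique D b hc (clsFun_spec D b y) h

/-- the explicit cycle representing `m'` -/
noncomputable def zc (m' : M') (a : Fin 4) : Fin 2 → M := fun k =>
  (if rw' a = cl' a then D.x k m' else 0) - if k = rw' a then D.x (cl' a) m' else 0

theorem sV_t (a : Fin 4) (m : Fin 2 → M) (l : ι) (k : Fin 2) :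
    tV D b a (sV b m) l k = b.repr (m k) l • e a - algebraMap ℂ U (b.repr (D.a (e a) (m k)) l) := by
  rw [tV_apply']
  have h1 : sV b m l k * e a = b.repr (m k) l • e a := by
    rw [Algebra.smul_def]; rfl
  rw [h1]
  refine congrArg (fun z => b.repr (m k) l • e a - z) ?_
  · have h : b.repr (D.a (e a) (m k)) l = ∑ j, Amat D b a l j * b.repr (m k) j := by
      conv_lhs => rw [← b.sum_repr (m k)]
      rw [map_sum, map_sum, Finsupp.finset_sum_apply]
      refine Finset.sum_congr rfl fun j _ => ?_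
      rw [map_smul, map_smul, Finsupp.smul_apply, smul_eq_mul, Amat, LinearMap.toMatrix_apply, mul_comm]
    rw [h, map_sum]
    refine Finset.sum_congr rfl fun j _ => ?_
    rw [map_mul, Algebra.smul_def]
    rfl

theorem zc_D1 (m' : M') :
    D1 (tV D b) (fun a => sV b (zc D m' a)) = vc (sV b (fun k => D.x k m')) := by
  have hcx : cM D (fun k => D.x k m') = 0 := by
    rw [cM_eq, dv_x]
    funext k
    rw [map_smul, sub_self]
    rfl
  have h0 : D.a (e 3) (D.x 0 m') + D.x 0 m' - D.a (e 1) (D.x 1 m') = 0 := congrFun hcx 0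
  have h1 : - D.a (e 2) (D.x 0 m') + D.a (e 0) (D.x 1 m') + D.x 1 m' = 0 := congrFun hcx 1
  have z00 : zc D m' 0 0 = 0 := by simp [zc, rw', cl']
  have z10 : zc D m' 1 0 = - D.x 1 m' := by simp [zc, rw', cl']
  have z20 : zc D m' 2 0 = 0 := by simp [zc, rw', cl']
  have z30 : zc D m' 3 0 = D.x 0 m' := by simp [zc, rw', cl']
  have z01 : zc D m' 0 1 = D.x 1 m' := by simp [zc, rw', cl']
  have z11 : zc D m' 1 1 = 0 := by simp [zc, rw', cl']
  have z21 : zc D m' 2 1 = - D.x 0 m' := by simp [zc, rw', cl']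
  have z31 : zc D m' 3 1 = 0 := by simp [zc, rw', cl']
  funext l k
  rw [D1_apply]
  simp only [Pi.add_apply, sV_t, vc_apply]
  fin_cases k
  · change b.repr (zc D m' 0 0) l • e 0 - algebraMap ℂ U (b.repr (D.a (e 0) (zc D m' 0 0)) l) +
      (b.repr (zc D m' 1 0) l • e 1 - algebraMap ℂ U (b.repr (D.a (e 1) (zc D m' 1 0)) l)) +
      (b.repr (zc D m' 2 0) l • e 2 - algebraMap ℂ U (b.repr (D.a (e 2) (zc D m' 2 0)) l)) +
      (b.repr (zc D m' 3 0) l • e 3 - algebraMap ℂ U (b.repr (D.a (e 3) (zc D m' 3 0)) l)) =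
      cmap (sV b (fun k => D.x k m') l) 0
    rw [z00, z10, z20, z30, cmap_zero']
    have h3 : D.x 0 m' = D.a (e 1) (D.x 1 m') - D.a (e 3) (D.x 0 m') := by
      rw [← sub_eq_zero, ← h0]; abel
    have h2 := congrArg (fun z => algebraMap ℂ U (b.repr z l)) h3
    simp only [map_sub, Finsupp.sub_apply] at h2
    have e0 : sV b (fun k => D.x k m') l 0 = algebraMap ℂ U (b.repr (D.x 0 m') l) := rfl
    have e1 : sV b (fun k => D.x k m') l 1 = algebraMap ℂ U (b.repr (D.x 1 m') l) := rfl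
    rw [e0, e1]
    have e2 : ∀ (c : ℂ) (u : U), u * algebraMap ℂ U c = c • u := fun c u => by
      rw [Algebra.smul_def, Algebra.commutes]
    rw [e2, e2, h2]
    simp only [map_zero, map_neg, Finsupp.coe_zero, Pi.zero_apply, Finsupp.neg_apply, zero_smul,
      neg_smul, sub_neg_eq_add, sub_zero, add_zero, zero_add]
    abel
  · change b.repr (zc D m' 0 1) l • e 0 - algebraMap ℂ U (b.repr (D.a (e 0) (zc D m' 0 1)) l) +
      (b.repr (zc D m' 1 1) l • e 1 - algebraMap ℂ U (b.repr (D.a (e 1) (zc D m' 1 1)) l)) +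
      (b.repr (zc D m' 2 1) l • e 2 - algebraMap ℂ U (b.repr (D.a (e 2) (zc D m' 2 1)) l)) +
      (b.repr (zc D m' 3 1) l • e 3 - algebraMap ℂ U (b.repr (D.a (e 3) (zc D m' 3 1)) l)) =
      cmap (sV b (fun k => D.x k m') l) 1
    rw [z01, z11, z21, z31, cmap_one']
    have h3 : D.x 1 m' = D.a (e 2) (D.x 0 m') - D.a (e 0) (D.x 1 m') := by
      rw [← sub_eq_zero, ← h1]; abel
    have h2 := congrArg (fun z => algebraMap ℂ U (b.repr z l)) h3
    simp only [map_sub, Finsupp.sub_apply] at h2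
    have e0 : sV b (fun k => D.x k m') l 0 = algebraMap ℂ U (b.repr (D.x 0 m') l) := rfl
    have e1 : sV b (fun k => D.x k m') l 1 = algebraMap ℂ U (b.repr (D.x 1 m') l) := rfl
    rw [e0, e1]
    have e2 : ∀ (c : ℂ) (u : U), u * algebraMap ℂ U c = c • u := fun c u => by
      rw [Algebra.smul_def, Algebra.commutes]
    rw [e2, e2, h2]
    simp only [map_zero, map_neg, Finsupp.coe_zero, Pi.zero_apply, Finsupp.neg_apply, zero_smul,
      neg_smul, sub_neg_eq_add, sub_zero, add_zero, zero_add]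
    abel

variable (hU : FilExact (Vec ι FU) (tU D b)) (hV : FilExact (Vec ι FV) (tV D b))

include hU hV

theorem cls_ker (j : ℤ) (y : LinearMap.ker (D1 (tUU D b))) (hy : ∀ a, y.1 a ∈ Vec ι Fil j)
    (h : cls D b hc y = 0) :
    ∃ x : Fin 6 → ι → UU, (∀ a, x a ∈ Vec ι Fil (j - 1)) ∧ D2 (tUU D b) x = y.1 := by
  obtain ⟨u, hu, hu'⟩ := hU.k1 j _ (fun a => ((mem_Vec_Fil _ _).1 (hy a)).1) (ker_fst D b y)
  have hyN := fun a => ((mem_Vec_Fil _ _).1 (hy a)).2
  choose v hv hvy using fun a => vmk_lift _ _ (hyN a)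
  have hvy' : (fun a => vmk (v a)) = fun a => vsnd (y.1 a) := funext hvy
  have h1 := ker_snd D b y
  rw [← hvy', D1_nat (tV D b) (tN D b) vmk (vmk_t D b)] at h1
  obtain ⟨w, hw⟩ := (vmk_eq_zero _).1 h1
  have hw' : w ∈ Vec ι FV (j + 1) := by
    apply vc_strict hc
    rw [hw]
    exact D1_mem (Vec ι FV) (tV D b) (fun a m w hw => tV_mem D b a m w hw) _ _ hv
  have h2 : cM D (epsV D b w) = 0 := by rw [← epsV_c, hw, epsV_D1]
  have h3 : Gam D b (fun a => vsnd (y.1 a)) (D.ν⁻¹ • dv D (epsV D b w)) :=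
    ⟨v, w, hvy', hw.symm, cM_zero D _ h2⟩
  have h4 : D.ν⁻¹ • dv D (epsV D b w) = 0 := (cls_eq D b hc y _ h3).symm.trans h
  have h5 : epsV D b w = 0 := by
    rw [cM_zero D _ h2]
    funext k
    rw [h4, map_zero]
    rfl
  obtain ⟨x, hx, hx'⟩ := V0 D b hV _ _ hw' h5
  rw [show j + 1 - 1 = j by ring] at hx
  have h6 : D1 (tV D b) (v - fun i => vc (x i)) = 0 := by
    rw [map_sub, D1_nat (tV D b) (tV D b) vc (vc_t D b), hx', ← hw, sub_self]
  obtain ⟨z, hz, hz'⟩ := hV.k1 (j + 1) _ (fun a => sub_mem (hv a) (vc_mem _ _ (hx a))) h6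
  refine ⟨fun a => vpair (u a) (vmk (z a)), fun a => ?_, ?_⟩
  · rw [mem_Vec_Fil, vfst_pair, vsnd_pair]
    refine ⟨hu a, vmk_mem _ _ ?_⟩
    have := hz a
    rwa [show j + 1 - 1 = j - 1 + 1 by ring] at this
  · funext i
    refine vext ?_ ?_
    · rw [(D2_comp D b _ i).1]; simp only [vfst_pair]; rw [hu']
    · rw [(D2_comp D b _ i).2]; simp only [vsnd_pair]
      rw [D2_nat (tV D b) (tN D b) vmk (vmk_t D b), hz']
      change vmk (v i - vc (x i)) = vsnd (y.1 i)
      have : vmk (vc (x i)) = 0 := (vmk_eq_zero _).2 ⟨_, rfl⟩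
      rw [map_sub, this, sub_zero, hvy]

omit hU hV in
theorem cls_bd (y : LinearMap.ker (D1 (tUU D b))) (x : Fin 6 → ι → UU)
    (h : D2 (tUU D b) x = y.1) : cls D b hc y = 0 := by
  choose v hv using fun a => vmk_surj (vsnd (x a))
  have hv' : (fun a => vmk (v a)) = fun a => vsnd (x a) := funext hv
  refine cls_eq D b hc y 0 ⟨D2 (tV D b) v, 0, ?_, ?_, ?_⟩
  · rw [← D2_nat (tV D b) (tN D b) vmk (vmk_t D b), hv', ← h]
    funext i
    exact ((D2_comp D b x i).2).symm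
  · rw [D1_D2 (tV_anti D b), map_zero]
  · rw [map_zero]; funext k; rw [map_zero]; rfl

omit hU hV in
theorem cls_surj (m : Act (actU D.a')) :
    ∃ y : LinearMap.ker (D1 (tUU D b)), (∀ a, y.1 a ∈ Vec ι Fil (-1)) ∧ cls D b hc y = m := by
  let m' : M' := m
  have h1 : D1 (tUU D b) (fun a => vpair 0 (vmk (sV b (zc D m' a)))) = 0 := by
    refine vext ?_ ?_
    · rw [(D1_comp D b _).1]
      simp only [vfst_pair]
      rw [map_zero]
      exact map_zero _
    · rw [(D1_comp D b _).2]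
      simp only [vsnd_pair]
      rw [D1_nat (tV D b) (tN D b) vmk (vmk_t D b), zc_D1, map_zero]
      exact (vmk_eq_zero _).2 ⟨_, rfl⟩
  refine ⟨⟨fun a => vpair 0 (vmk (sV b (zc D m' a))), LinearMap.mem_ker.2 h1⟩, fun a => ?_, ?_⟩
  · rw [mem_Vec_Fil, vfst_pair, vsnd_pair]
    exact ⟨zero_mem _, vmk_mem _ _ (sV_mem b _)⟩
  · refine cls_eq D b hc _ m' ⟨fun a => sV b (zc D m' a), sV b (fun k => D.x k m'), ?_, ?_, ?_⟩
    · funext a
      exact (vsnd_pair _ _).symm
    · exact zc_D1 D b m'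
    · rw [epsV_sV]

end Final

/-- T5: exactness over `UU`. -/
theorem uuexact (h : UExactStmt) : UUExactStmt := by
  intro M M' _ _ _ _ D ι _ _ b
  obtain ⟨h1, hc⟩ := h
  obtain ⟨hU, hV⟩ := h1 M M' D ι b
  exact {
    anti := tUU_anti D b
    k4 := UU4 D b hU hV hc
    k3 := UU3 D b hU hV hc
    k2 := UU2 D b hU hV hc
    eps_D1 := epsE_D1 D b
    eps_ker := UU_eps_ker D b hU hV hc
    eps_surj := UU_eps_surj D b
    cls := ⟨cls D b hc, fun j y _ hy h => cls_ker D b hc hU hV j y hy h,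
      fun y x h => cls_bd D b hc y x h, fun m => cls_surj D b hc m⟩ }

end Crest.Agent.R178
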